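import Vale.Agent.P324.Struct

/-!
The structure theorem: every perfectly schedulable set is reached by splitting through sets of a
family with a bounded number of parameters.
-/

namespace Vale.Agent.P324

variable {V W : Type} [DecidableEq V] [LinearOrder W]

/-- A strict order on a universe with a strictly monotone injective rank and a top element. -/
structure Sys (r : V → V → Prop) (ι : V → W) (U : Set V) (top : V) : Prop where
  tr : ∀ u v w, r u v → r v w → r u w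
  mo : ∀ u v, r u v → ι u < ι v
  inj : Function.Injective ι
  memU : ∀ u v, r u v → v ∈ U
  topU : top ∈ U
  lt_top : ∀ u v, r u v → ι u < ι top

/-- Sets of predecessors of three elements, cut at a rank. -/
def IsCut (r : V → V → Prop) (ι : V → W) (U X : Set V) : Prop :=
  ∃ a ∈ U, ∃ b ∈ U, ∃ c ∈ U, ∃ w ∈ U, ∀ v, v ∈ X ↔ (r v a ∨ r v b ∨ r v c) ∧ ι v < ι w

/-- First priority order. -/
def lt1 (ι : V → W) (P : Set V) (v x : V) : Prop :=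
  (v ∉ P ∧ x ∈ P) ∨ ((v ∈ P ↔ x ∈ P) ∧ ι x < ι v)

/-- Second priority order. -/
def lt2 (ι : V → W) (P Q : Set V) (v x : V) : Prop :=
  (v ∉ P ∧ x ∈ P) ∨ (v ∉ P ∧ v ∉ Q ∧ x ∈ Q) ∨
    ((v ∈ P ↔ x ∈ P) ∧ (v ∈ P ∨ v ∈ Q ↔ x ∈ P ∨ x ∈ Q) ∧ ι x < ι v)

/-- The shape of a node. -/
structure Shape (r : V → V → Prop) (ι : V → W) (U : Set V) (a b c : V) (P Q R : Set V)
    (s x y : V) (J : Finset V) : Prop where
  ha : a ∈ U
  hb : b ∈ U
  hc : c ∈ U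
  hP : IsCut r ι U P
  hQ : IsCut r ι U Q
  hR : IsCut r ι U R
  hs : s ∈ U
  hx : x ∈ U
  hy : y ∈ U
  mem : ∀ v, v ∈ J ↔ (r a v ∨ r b v ∨ r c v) ∧ (v ∈ P ∨ v ∈ Q ∨ v ∈ R) ∧
    ¬(v = s ∨ v = x ∨ v = y ∨ r s v ∨ r x v ∨ r y v)

/-- The invariants of a node. -/
structure Node (r : V → V → Prop) (ι : V → W) (U : Set V) (a b c : V) (P Q R : Set V)
    (s x y : V) (J : Finset V) : Prop extends Shape r ι U a b c P Q R s x y J where
  anti : ¬r x s ∧ ¬r y s ∧ ¬r s x ∧ ¬r y x ∧ ¬r s y ∧ ¬r x y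
  ps : ∀ v, r v s → v ∈ P
  ns : s ∉ P ∧ s ∉ Q ∧ s ∉ R
  px : ∀ v, r v x → v ∈ P ∨ v ∈ Q
  py : ∀ v, r v y → v ∈ P ∨ v ∈ Q ∨ v ∈ R
  xy : ¬lt1 ι P y x
  pr1 : ∀ A g p q B, Split r J A g p q B → (∀ v ∈ J, ¬r g v) → ¬r g s → ¬r g x → ¬r g y →
    lt1 ι P g x → r p x ∨ r q x ∨ ∃ u ∈ B, r u x
  pr2 : ∀ A g p q B, Split r J A g p q B → (∀ v ∈ J, ¬r g v) → ¬r g s → ¬r g x → ¬r g y →
    lt2 ι P Q g y ∨ lt1 ι P g x → r p y ∨ r q y ∨ ∃ u ∈ B, r u y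

variable {r : V → V → Prop} {ι : V → W} {U : Set V} {top : V}

omit [DecidableEq V] in
lemma IsCut.down (S : Sys r ι U top) {X : Set V} (h : IsCut r ι U X) :
    ∀ u v, r u v → v ∈ X → u ∈ X := by
  obtain ⟨a, -, b, -, c, -, w, -, h⟩ := h
  intro u v huv hv
  rw [h] at hv ⊢
  have := S.tr u v
  exact ⟨by grind, (S.mo _ _ huv).trans hv.2⟩

omit [DecidableEq V] in
lemma IsCut.cut {X : Set V} (h : IsCut r ι U X) {g : V} (hg : g ∈ U) :
    IsCut r ι U {v | v ∈ X ∧ ι v < ι g} := by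
  obtain ⟨a, ha, b, hb, c, hc, w, hw, h⟩ := h
  rcases le_total (ι g) (ι w) with k | k
  · exact ⟨a, ha, b, hb, c, hc, g, hg, fun v => by
      simp only [Set.mem_ofPred_eq, h]
      exact ⟨fun k' => ⟨k'.1.1, k'.2⟩, fun k' => ⟨⟨k'.1, k'.2.trans_le k⟩, k'.2⟩⟩⟩
  · exact ⟨a, ha, b, hb, c, hc, w, hw, fun v => by
      simp only [Set.mem_ofPred_eq, h]
      exact ⟨fun k' => k'.1, fun k' => ⟨k', k'.2.trans_le k⟩⟩⟩

omit [DecidableEq V] in
lemma isCut_below (S : Sys r ι U top) {a b c : V} (ha : a ∈ U) (hb : b ∈ U) (hc : c ∈ U) :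
    IsCut r ι U {v | r v a ∨ r v b ∨ r v c} :=
  ⟨a, ha, b, hb, c, hc, top, S.topU, fun v => ⟨fun h => ⟨h, by
    rcases h with h | h | h <;> exact S.lt_top _ _ h⟩, fun h => h.1⟩⟩

omit [DecidableEq V] in
lemma exists_top (ι : V → W) (J : Finset V) (p : V → Prop) (h : ∃ v ∈ J, p v) :
    ∃ g ∈ J, p g ∧ ∀ v ∈ J, p v → ι v ≤ ι g := by
  classical
  obtain ⟨g, hg, hm⟩ := Finset.exists_max_image (J.filter p) ι
    (let ⟨v, h1, h2⟩ := h; ⟨v, Finset.mem_filter.2 ⟨h1, h2⟩⟩)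
  exact ⟨g, (Finset.mem_filter.1 hg).1, (Finset.mem_filter.1 hg).2,
    fun v h1 h2 => hm v (Finset.mem_filter.2 ⟨h1, h2⟩)⟩

/-- The outcome of the selection step. -/
structure Sel (r : V → V → Prop) (ι : V → W) (U : Set V) (P Q R : Set V) (s x y : V)
    (J : Finset V) (g : V) (P' Q' R' : Set V) : Prop where
  hg : g ∈ J
  sink : ∀ v ∈ J, ¬r g v
  hP : IsCut r ι U P'
  hQ : IsCut r ι U Q'
  hR : IsCut r ι U R'
  cov : ∀ v ∈ J, v ≠ g → v ∈ P' ∨ v ∈ Q' ∨ v ∈ R'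
  ng : g ∉ P' ∧ g ∉ Q' ∧ g ∉ R'
  pg : ∀ v, r v g → v ∈ P'
  sub : ∀ v, v ∈ P' ∨ v ∈ Q' ∨ v ∈ R' → v ∈ P ∨ v ∈ Q ∨ v ∈ R
  bx : x ∈ P' ∨ x ∈ Q' ∨ x ∈ R' → ¬r g s ∧ ¬r g x ∧ ¬r g y ∧ lt1 ι P g x
  by' : y ∈ P' ∨ y ∈ Q' ∨ y ∈ R' → ¬r g s ∧ ¬r g x ∧ ¬r g y ∧ (lt2 ι P Q g y ∨ lt1 ι P g x)

omit [DecidableEq V] in
lemma Sel.swap {P Q R P' Q' R' : Set V} {s x y g : V} {J : Finset V}
    (h : Sel r ι U P Q R s x y J g P' Q' R') : Sel r ι U P Q R s x y J g P' R' Q' := by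
  obtain ⟨h1, h2, h3, h4, h5, h6, h7, h8, h9, h10, h11⟩ := h
  refine ⟨h1, h2, h3, h5, h4, ?_, ?_, h8, ?_, ?_, ?_⟩ <;> grind

omit [DecidableEq V] in
theorem Node.select (S : Sys r ι U top) {a b c s x y : V} {P Q R : Set V} {J : Finset V}
    (h : Node r ι U a b c P Q R s x y J) (hne : ∃ v, v ∈ J) :
    ∃ g P' Q' R', Sel r ι U P Q R s x y J g P' Q' R' := by
  have dP := h.hP.down S
  have dQ := h.hQ.down S
  have dR := h.hR.down S
  have hU : ∀ v ∈ J, v ∈ U := fun v hv => by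
    rcases ((h.mem v).1 hv).1 with k | k | k <;> exact S.memU _ _ k
  have hD : ∀ v ∈ J, v ∈ P ∨ v ∈ Q ∨ v ∈ R := fun v hv => ((h.mem v).1 hv).2.1
  have hxJ : x ∉ J := fun hv => ((h.mem x).1 hv).2.2 (by simp)
  have mo := S.mo
  have tr := S.tr
  have inj : ∀ u v, ι u = ι v → u = v := fun u v k => S.inj k
  have hN := isCut_below S h.hs h.hx h.hy
  obtain ⟨⟨-, -, -, hP, hQ, hR, -, hx, -, -⟩, anti, ps, ns, px, py, xy, -, -⟩ := h
  unfold lt1 at xy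
  by_cases c1 : ∃ v ∈ J, v ∉ P ∧ v ∉ Q
  · obtain ⟨g, g1, g2, g3⟩ := exists_top ι J (fun v => v ∉ P)
      (let ⟨v, h1, h2⟩ := c1; ⟨v, h1, h2.1⟩)
    by_cases c2 : x ∈ P ∨ ι x < ι g
    · have key : ∀ Q R : Set V, IsCut r ι U Q → IsCut r ι U R → (∀ u v, r u v → v ∈ Q → u ∈ Q) →
          g ∈ Q → ∀ Q₀ R₀ : Set V, (∀ v, v ∈ Q ∨ v ∈ R ↔ v ∈ Q₀ ∨ v ∈ R₀) →
          (∀ v ∈ J, v ∈ P ∨ v ∈ Q₀ ∨ v ∈ R₀) →
          Sel r ι U P Q₀ R₀ s x y J g {v | v ∈ Q ∧ ι v < ι g} P {v | v ∈ R ∧ ι v < ι g} := by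
        intro Q R hQ hR dQ gQ Q₀ R₀ e hD
        have k1 : ¬r g s ∧ ¬r g x ∧ ¬r g y ∧ lt1 ι P g x := by
          unfold lt1
          grind
        refine ⟨g1, ?_, hQ.cut (hU g g1), hP, hR.cut (hU g g1), ?_, ?_, ?_, ?_, fun _ => k1,
          fun _ => ⟨k1.1, k1.2.1, k1.2.2.1, Or.inr k1.2.2.2⟩⟩ <;> grind
      rcases hD g g1 with k | k | k
      · exact absurd k g2
      · exact ⟨_, _, _, _, key Q R hQ hR dQ k Q R (fun _ => Iff.rfl) hD⟩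
      · exact ⟨_, _, _, _, key R Q hR hQ dR k Q R (fun _ => or_comm) hD⟩
    · obtain ⟨g', k1, k2, k3⟩ := exists_top ι J (fun v => v ∉ P ∧ v ∉ Q) c1
      have k4 := g3 g' k1 k2.1
      have k5 := hD g' k1
      refine ⟨g', {v | v ∈ R ∧ ι v < ι g'}, P, {v | v ∈ Q ∧ ι v < ι x}, k1, ?_,
        hR.cut (hU g' k1), hP, hQ.cut hx, ?_, ?_, ?_, ?_, ?_, ?_⟩
      · grind
      · grind
      · grind
      · grind
      · grind
      · grind
      · unfold lt2; grind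
  by_cases c2 : ∃ v ∈ J, v ∉ P ∧ ¬(r v s ∨ r v x ∨ r v y)
  · obtain ⟨g, g1, g2, g3⟩ := exists_top ι J _ c2
    have k5 := hD g g1
    refine ⟨g, {v | v ∈ Q ∧ ι v < ι g}, P, {v | r v s ∨ r v x ∨ r v y}, g1, ?_,
      hQ.cut (hU g g1), hP, hN, ?_, ?_, ?_, ?_, ?_, ?_⟩
    · grind
    · grind
    · grind
    · grind
    · grind
    · unfold lt1; grind
    · unfold lt2; grind
  by_cases c3 : ∃ v ∈ J, ¬(r v s ∨ r v x ∨ r v y)
  · obtain ⟨g, g1, g2, g3⟩ := exists_top ι J _ c3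
    refine ⟨g, {v | v ∈ P ∧ ι v < ι g}, {v | r v s ∨ r v x ∨ r v y},
      {v | r v s ∨ r v x ∨ r v y}, g1, ?_, hP.cut (hU g g1), hN, hN, ?_, ?_, ?_, ?_, ?_, ?_⟩
    · grind
    · grind
    · grind
    · grind
    · grind
    · unfold lt1; grind
    · unfold lt2; grind
  · obtain ⟨g, g1, -, g3⟩ := exists_top ι J (fun _ => True) (let ⟨v, h1⟩ := hne; ⟨v, h1, trivial⟩)
    have hN' := hN.cut (hU g g1)
    refine ⟨g, _, _, _, g1, ?_, hN', hN', hN', ?_, ?_, ?_, ?_, ?_, ?_⟩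
    · grind
    · grind
    · grind
    · grind
    · grind
    · grind
    · grind

omit [DecidableEq V] in
lemma exists_minimal (lt : V → V → Prop) (irr : ∀ v, ¬lt v v)
    (tr : ∀ u v w, lt u v → lt v w → lt u w) (J : Finset V) (p : V → Prop) (h : ∃ v ∈ J, p v) :
    ∃ m ∈ J, p m ∧ ∀ v ∈ J, p v → ¬lt v m := by
  classical
  obtain ⟨g, hg, hm⟩ := Finset.exists_min_image (J.filter p)
    (fun m => (J.filter fun u => lt u m).card)
    (let ⟨v, h1, h2⟩ := h; ⟨v, Finset.mem_filter.2 ⟨h1, h2⟩⟩)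
  refine ⟨g, (Finset.mem_filter.1 hg).1, (Finset.mem_filter.1 hg).2, fun v h1 h2 h3 => ?_⟩
  refine (hm v (Finset.mem_filter.2 ⟨h1, h2⟩)).not_gt (Finset.card_lt_card ⟨fun u hu => ?_,
    fun h' => irr v (Finset.mem_filter.1 (h' (Finset.mem_filter.2 ⟨h1, h3⟩))).2⟩)
  exact Finset.mem_filter.2 ⟨(Finset.mem_filter.1 hu).1, tr _ _ _ (Finset.mem_filter.1 hu).2 h3⟩

theorem Node.step (S : Sys r ι U top) {a b c s x y : V} {P Q R : Set V} {J : Finset V}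
    (h : Node r ι U a b c P Q R s x y J) (hF : Feas r J) (hne : ∃ v, v ∈ J) :
    ∃ A g p q B P' Q' R', Split r J A g p q B ∧
      (∀ v, v ∈ A ↔ v ∈ J ∧ ¬(v = g ∨ v = p ∨ v = q ∨ r g v ∨ r p v ∨ r q v)) ∧
      (∀ v, v ∈ B ↔ v ∈ J ∧ (r g v ∨ r p v ∨ r q v)) ∧
      Node r ι U a b c P' Q' R' g p q A ∧ Node r ι U g p q P Q R s x y B := by
  classical
  obtain ⟨g, P', S₁, S₂, sel₀⟩ := h.select S hne
  have hex : ∃ m, ∃ A p q B, Split r J A g p q B ∧ B.card = m :=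
    let ⟨A, p, q, B, k⟩ := hF.exists_split g sel₀.hg; ⟨_, A, p, q, B, k, rfl⟩
  have hmin : ∀ A p q B, Split r J A g p q B → Nat.find hex ≤ B.card :=
    fun A p q B k => Nat.find_min' hex ⟨A, p, q, B, k, rfl⟩
  obtain ⟨p, hpJ, ⟨A₀, q₀, B₀, k₀, c₀⟩, pmin⟩ := exists_minimal (lt1 ι P')
    (fun v => by unfold lt1; grind) (fun u v w => by unfold lt1; grind) J
    (fun p => ∃ A q B, Split r J A g p q B ∧ B.card = Nat.find hex)
    (let ⟨A, p, q, B, k, c⟩ := Nat.find_spec hex; ⟨p, (k.mem p).2 (by simp), A, q, B, k, c⟩)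
  obtain ⟨Q', R', sel, hp⟩ : ∃ Q' R', Sel r ι U P Q R s x y J g P' Q' R' ∧ (p ∈ P' ∨ p ∈ Q') := by
    rcases sel₀.cov p hpJ k₀.tri.1.symm with k | k | k
    · exact ⟨_, _, sel₀, Or.inl k⟩
    · exact ⟨_, _, sel₀, Or.inr k⟩
    · exact ⟨_, _, sel₀.swap, Or.inr k⟩
  obtain ⟨q, hqJ, ⟨A, B, k, cB⟩, qmin⟩ := exists_minimal (lt2 ι P' Q')
    (fun v => by unfold lt2; grind) (fun u v w => by unfold lt2; grind) J
    (fun q => ∃ A B, Split r J A g p q B ∧ B.card = Nat.find hex)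
    ⟨q₀, (k₀.mem q₀).2 (by simp), A₀, B₀, k₀, c₀⟩
  have late := k.late S.tr S.mo sel.sink fun A' x' y' B' k' => cB ▸ hmin A' x' y' B' k'
  have tr := S.tr
  have hU : ∀ v ∈ J, v ∈ U := fun v hv => by
    rcases ((h.mem v).1 hv).1 with k | k | k <;> exact S.memU _ _ k
  have mA : ∀ v, v ∈ A ↔ v ∈ J ∧ ¬(v = g ∨ v = p ∨ v = q ∨ r g v ∨ r p v ∨ r q v) := fun v => by
    have := k.hA v
    have := k.mem v
    have := late v
    grind
  have mB : ∀ v, v ∈ B ↔ v ∈ J ∧ (r g v ∨ r p v ∨ r q v) := fun v => by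
    have := k.hA v
    have := k.mem v
    have := late v
    have := k.tri
    have := S.mo v v
    unfold Tri at *
    grind
  have dP := sel.hP.down S
  have dQ := sel.hQ.down S
  have dR := sel.hR.down S
  have hq := sel.cov q hqJ k.tri.2.1.symm
  refine ⟨A, g, p, q, B, P', Q', R', k, mA, mB, ⟨⟨h.ha, h.hb, h.hc, sel.hP, sel.hQ, sel.hR,
    hU g sel.hg, hU p hpJ, hU q hqJ, fun v => ?_⟩, ?_, sel.pg, sel.ng, ?_, ?_,
    pmin q hqJ ⟨A, p, B, k.swap, cB⟩, ?_, ?_⟩, ⟨⟨hU g sel.hg, hU p hpJ, hU q hqJ, h.hP, h.hQ, h.hR,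
    h.hs, h.hx, h.hy, fun v => ?_⟩, h.anti, h.ps, h.ns, h.px, h.py, h.xy, ?_, ?_⟩⟩
  · have e1 : x ∈ P' ∨ x ∈ Q' ∨ x ∈ R' → r p x ∨ r q x := fun hx => by
      obtain ⟨b1, b2, b3, b4⟩ := sel.bx hx
      have := h.pr1 A g p q B k sel.sink b1 b2 b3 b4
      grind
    have e2 : y ∈ P' ∨ y ∈ Q' ∨ y ∈ R' → r p y ∨ r q y := fun hy => by
      obtain ⟨b1, b2, b3, b4⟩ := sel.by' hy
      have := h.pr2 A g p q B k sel.sink b1 b2 b3 b4
      grind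
    have e3 := sel.sub s
    have e4 := h.ns
    have e5 := sel.sub v
    have e6 := sel.cov v
    have e7 := h.mem v
    rw [mA]
    grind
  · have := k.tri
    unfold Tri at this
    tauto
  · grind
  · grind
  · intro A' u p' q' B' k' hs n1 n2 n3 hl
    by_contra hc
    push Not at hc
    obtain ⟨A'', k''⟩ := k.exchange k' hs n1 n2 n3 hc.1 hc.2.1 hc.2.2
    exact pmin u ((k''.mem u).2 (by simp)) ⟨A'', q, B, k'', cB⟩ hl
  · intro A' u p' q' B' k' hs n1 n2 n3 hl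
    by_contra hc
    push Not at hc
    obtain ⟨A'', k''⟩ := k.swap.exchange k' hs n1 n3 n2 hc.1 hc.2.1 hc.2.2
    have hu := (k''.mem u).2 (by simp)
    rcases hl with hl | hl
    · exact qmin u hu ⟨A'', B, k''.swap, cB⟩ hl
    · exact pmin u hu ⟨A'', p, B, k'', cB⟩ hl
  · have e1 := ((h.mem g).1 sel.hg).1
    have e2 := ((h.mem p).1 hpJ).1
    have e3 := ((h.mem q).1 hqJ).1
    have e7 := h.mem v
    rw [mB]
    grind
  · intro A' u p' q' B' k' hs n1 n2 n3 hl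
    have hu := (mB u).1 ((k'.mem u).2 (by simp))
    exact h.pr1 _ u p' q' B' (k.extend k') (by grind) n1 n2 n3 hl
  · intro A' u p' q' B' k' hs n1 n2 n3 hl
    have hu := (mB u).1 ((k'.mem u).2 (by simp))
    exact h.pr2 _ u p' q' B' (k.extend k') (by grind) n1 n2 n3 hl

/-- Completeness of the dynamic program on the family of shapes. -/
theorem Node.good (S : Sys r ι U top) (G : ℕ → Finset V → Prop)
    (hG : ∀ k J a b c P Q R s x y, Shape r ι U a b c P Q R s x y J →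
      (J = ∅ ∨ ∃ g ∈ J, ∃ p ∈ J, ∃ q ∈ J, ∃ A B, Tri r g p q ∧
        (∀ v, v ∈ A ↔ v ∈ J ∧ ¬(v = g ∨ v = p ∨ v = q ∨ r g v ∨ r p v ∨ r q v)) ∧
        (∀ v, v ∈ B ↔ v ∈ J ∧ (r g v ∨ r p v ∨ r q v)) ∧ G k A ∧ G k B) → G (k + 1) J) :
    ∀ (k : ℕ) {a b c s x y : V} {P Q R : Set V} {J : Finset V},
      Node r ι U a b c P Q R s x y J → Feas r J → J.card < k → G k J := by
  intro k
  induction k with
  | zero => intro _ _ _ _ _ _ _ _ _ _ _ _ h; omega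
  | succ k ih =>
    intro a b c s x y P Q R J h hF hk
    refine hG k J a b c P Q R s x y h.toShape ?_
    rcases J.eq_empty_or_nonempty with hJ | hJ
    · exact Or.inl hJ
    obtain ⟨A, g, p, q, B, P', Q', R', k0, mA, mB, n1, n2⟩ := h.step S hF hJ
    have hg := (k0.mem g).2 (by simp)
    have cA : A.card < J.card := Finset.card_lt_card
      ⟨fun v hv => ((mA v).1 hv).1, fun h' => (k0.hA g (h' hg)).1 rfl⟩
    have cB : B.card < J.card := Finset.card_lt_card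
      ⟨fun v hv => ((mB v).1 hv).1, fun h' => (k0.hB g (h' hg)).1 rfl⟩
    exact Or.inr ⟨g, hg, p, (k0.mem p).2 (by simp), q, (k0.mem q).2 (by simp), A, B, k0.tri, mA,
      mB, ih n1 k0.fA (by omega), ih n2 k0.fB (by omega)⟩

omit [DecidableEq V] in
/-- The root node. -/
theorem Node.root (S : Sys r ι U top) {bot : V} (hb : bot ∈ U) {J : Finset V}
    (hJ : ∀ v, v ∈ J ↔ r bot v ∧ r v top) :
    Node r ι U bot bot bot {v | r v top ∨ r v top ∨ r v top} {v | r v top ∨ r v top ∨ r v top}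
      {v | r v top ∨ r v top ∨ r v top} top top top J := by
  have hN := isCut_below S S.topU S.topU S.topU
  have irr : ∀ v, ¬r v v := fun v h => (S.mo _ _ h).false
  have tr := S.tr
  refine ⟨⟨hb, hb, hb, hN, hN, hN, S.topU, S.topU, S.topU, fun v => ?_⟩, ?_, ?_, ?_, ?_, ?_,
    ?_, ?_, ?_⟩
  · grind
  · grind
  · grind
  · grind
  · grind
  · grind
  · unfold lt1; grind
  · intro A g p q B k _ n1
    exact absurd ((hJ g).1 ((k.mem g).2 (by simp))).2 n1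
  · intro A g p q B k _ n1
    exact absurd ((hJ g).1 ((k.mem g).2 (by simp))).2 n1

/-- Soundness of a splitting step. -/
theorem Feas.of_step (tr : ∀ u v w, r u v → r v w → r u w) (irr : ∀ v, ¬r v v)
    {J A B : Finset V} {g p q : V} (hg : g ∈ J) (hp : p ∈ J) (hq : q ∈ J) (ht : Tri r g p q)
    (mA : ∀ v, v ∈ A ↔ v ∈ J ∧ ¬(v = g ∨ v = p ∨ v = q ∨ r g v ∨ r p v ∨ r q v))
    (mB : ∀ v, v ∈ B ↔ v ∈ J ∧ (r g v ∨ r p v ∨ r q v)) (hA : Feas r A) (hB : Feas r B) :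
    Feas r J := by
  have ht' := ht
  unfold Tri at ht'
  refine Split.feas (A := A) (B := B) ⟨hA, hB, ht, ?_, ?_, ?_, ?_⟩ <;> grind

end Vale.Agent.P324
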