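import Vale.Agent.Lib.PCP.Base
import Vale.Agent.P324.Node

/-!
The dynamic program on lists, its correctness and its running time.
-/

open Vale.Agent.Lib.TM

namespace Vale.Agent.P324

/-- Boolean matrices. -/
abbrev Mat := List (List Bool)

/-- Triples. -/
abbrev T3 := ℕ × ℕ × ℕ

/-- Descriptions of sets of jobs. -/
abbrev Desc := T3 × (T3 × ℕ) × (T3 × ℕ) × (T3 × ℕ) × T3

/-- An entry of a matrix. -/
def ent (m : Mat) (u v : ℕ) : Bool := (m.getD u []).getD v false

/-- The indices of a matrix. -/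
def idx (m : Mat) : List ℕ := List.range m.length

/-- The number of predecessors. -/
def cnt (m : Mat) (v : ℕ) : ℕ := (idx m).countP fun u => ent m u v

/-- A linear extension. -/
def lo (m : Mat) (u v : ℕ) : Bool :=
  decide (cnt m u < cnt m v) || (cnt m u == cnt m v && decide (u < v))

/-- Strictly above a member of a triple. -/
def upS (m : Mat) (t : T3) (v : ℕ) : Bool := ent m t.1 v || (ent m t.2.1 v || ent m t.2.2 v)

/-- Above or in a triple. -/
def upW (m : Mat) (t : T3) (v : ℕ) : Bool :=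
  v == t.1 || (v == t.2.1 || (v == t.2.2 || upS m t v))

/-- Below a member of a triple and before a given element. -/
def cutB (m : Mat) (c : T3 × ℕ) (v : ℕ) : Bool :=
  (ent m v c.1.1 || (ent m v c.1.2.1 || ent m v c.1.2.2)) && lo m v c.2

/-- Membership in the described set. -/
def inJ (m : Mat) (d : Desc) (v : ℕ) : Bool :=
  upS m d.1 v && ((cutB m d.2.1 v || (cutB m d.2.2.1 v || cutB m d.2.2.2.1 v)) &&
    !upW m d.2.2.2.2 v)

/-- All pairs. -/
def pairs {β γ : Type} (l : List β) (l' : List γ) : List (β × γ) :=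
  l.flatMap fun x => l'.map fun y => (x, y)

/-- All triples. -/
def tris (m : Mat) : List T3 := pairs (idx m) (pairs (idx m) (idx m))

/-- All descriptions. -/
def descs (m : Mat) : List Desc :=
  pairs (tris m) (pairs (pairs (tris m) (idx m)) (pairs (pairs (tris m) (idx m))
    (pairs (pairs (tris m) (idx m)) (tris m))))

/-- Test for three distinct unrelated elements. -/
def triB (m : Mat) (t : T3) : Bool :=
  !(t.1 == t.2.1) && (!(t.1 == t.2.2) && (!(t.2.1 == t.2.2) && (!ent m t.1 t.2.1 &&
    (!ent m t.2.1 t.1 && (!ent m t.1 t.2.2 && (!ent m t.2.2 t.1 && (!ent m t.2.1 t.2.2 &&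
      !ent m t.2.2 t.2.1)))))))

/-- Whether a set is described by a member of a list. -/
def memG (m : Mat) (G : List Desc) (X : ℕ → Bool) : Bool :=
  G.any fun d => (idx m).all fun v => inJ m d v == X v

/-- Whether a triple splits a described set into two listed sets. -/
def okT (m : Mat) (G : List Desc) (d : Desc) (t : T3) : Bool :=
  triB m t && (inJ m d t.1 && (inJ m d t.2.1 && (inJ m d t.2.2 &&
    (memG m G (fun v => inJ m d v && !upW m t v) && memG m G fun v => inJ m d v && upS m t v))))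

/-- One round. -/
def step (m : Mat) (G : List Desc) : List Desc :=
  (descs m).filter fun d => (idx m).all (fun v => !inJ m d v) || (tris m).any fun t => okT m G d t

/-- The rounds. -/
def rounds (m : Mat) (l : List ℕ) : List Desc := l.foldl (fun G _ => step m G) []

/-- The decision for the elements between two given ones. -/
def solve (m : Mat) (bot top : ℕ) : Bool :=
  memG m (rounds m (idx m)) fun v => ent m bot v && ent m v top

section time

variable {α : Type} [Enc α] {e : ℕ}

@[fun_prop] theorem ct_ent {m : α → Mat} {u v : α → ℕ} (hm : CT e m) (hu : CT e u)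
    (hv : CT e v) : CT e fun a => ent (m a) (u a) (v a) := by unfold ent; fun_prop

@[fun_prop] theorem ct_idx {m : α → Mat} (hm : CT e m) : CT e fun a => idx (m a) :=
  hm.range_length

@[fun_prop] theorem ct_cnt {m : α → Mat} {v : α → ℕ} (hm : CT e m) (hv : CT e v) :
    CT e fun a => cnt (m a) (v a) := by unfold cnt; fun_prop

@[fun_prop] theorem ct_lo {m : α → Mat} {u v : α → ℕ} (hm : CT e m) (hu : CT e u)
    (hv : CT e v) : CT e fun a => lo (m a) (u a) (v a) := by unfold lo; fun_prop

@[fun_prop] theorem ct_upS {m : α → Mat} {t : α → T3} {v : α → ℕ} (hm : CT e m) (ht : CT e t)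
    (hv : CT e v) : CT e fun a => upS (m a) (t a) (v a) := by unfold upS; fun_prop

@[fun_prop] theorem ct_upW {m : α → Mat} {t : α → T3} {v : α → ℕ} (hm : CT e m) (ht : CT e t)
    (hv : CT e v) : CT e fun a => upW (m a) (t a) (v a) := by unfold upW; fun_prop

@[fun_prop] theorem ct_cutB {m : α → Mat} {c : α → T3 × ℕ} {v : α → ℕ} (hm : CT e m)
    (hc : CT e c) (hv : CT e v) : CT e fun a => cutB (m a) (c a) (v a) := by
  unfold cutB; fun_prop

@[fun_prop] theorem ct_inJ {m : α → Mat} {d : α → Desc} {v : α → ℕ} (hm : CT e m)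
    (hd : CT e d) (hv : CT e v) : CT e fun a => inJ (m a) (d a) (v a) := by
  unfold inJ; fun_prop

@[fun_prop] theorem ct_pairs {β γ : Type} [Enc β] [Enc γ] {l : α → List β} {l' : α → List γ}
    (hl : CT e l) (hl' : CT e l') : CT e fun a => pairs (l a) (l' a) := by
  unfold pairs; fun_prop

@[fun_prop] theorem ct_tris {m : α → Mat} (hm : CT e m) : CT e fun a => tris (m a) := by
  unfold tris; fun_prop

@[fun_prop] theorem ct_descs {m : α → Mat} (hm : CT e m) : CT e fun a => descs (m a) := by
  unfold descs; fun_prop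

@[fun_prop] theorem ct_triB {m : α → Mat} {t : α → T3} (hm : CT e m) (ht : CT e t) :
    CT e fun a => triB (m a) (t a) := by unfold triB; fun_prop

@[fun_prop] theorem ct_memG {m : α → Mat} {G : α → List Desc} {X : α → ℕ → Bool} (hm : CT e m)
    (hG : CT e G) (hX : CT e fun p : α × ℕ => X p.1 p.2) :
    CT e fun a => memG (m a) (G a) (X a) := by
  have h1 : CT e fun p : (α × Desc) × ℕ => X p.1.1 p.2 :=
    hX.comp (g := fun p : (α × Desc) × ℕ => (p.1.1, p.2)) (by fun_prop)
  unfold memG; fun_prop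

@[fun_prop] theorem ct_okT {m : α → Mat} {G : α → List Desc} {d : α → Desc} {t : α → T3}
    (hm : CT e m) (hG : CT e G) (hd : CT e d) (ht : CT e t) :
    CT e fun a => okT (m a) (G a) (d a) (t a) := by unfold okT; fun_prop

@[fun_prop] theorem ct_step {m : α → Mat} {G : α → List Desc} (hm : CT e m) (hG : CT e G) :
    CT e fun a => step (m a) (G a) := by unfold step; fun_prop

lemma sz_filter {β : Type} [Enc β] (p : β → Bool) (l : List β) : sz (l.filter p) ≤ sz l := by
  induction l with
  | nil => simp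
  | cons x l ih => cases h : p x <;> simp [h] <;> omega

@[fun_prop] theorem ct_rounds {m : α → Mat} {l : α → List ℕ} (hm : CT e m) (hl : CT e l) :
    CT e fun a => rounds (m a) (l a) :=
  CT.foldl_inv (g := fun a G _ => step (m a) G) (by fun_prop) (CT.const _) hl (ct_descs hm).size
    (fun a s _ => sz s ≤ sz (descs (m a))) (fun _ => sz_pos _) (fun _ _ _ _ _ => sz_filter _ _)
    fun _ _ _ h => h

@[fun_prop] theorem ct_solve {m : α → Mat} {u v : α → ℕ} (hm : CT e m) (hu : CT e u)
    (hv : CT e v) : CT e fun a => solve (m a) (u a) (v a) := by unfold solve; fun_prop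

end time

/-- The relation of a matrix. -/
def rel (m : Mat) (u v : ℕ) : Prop := ent m u v = true

/-- The matrix is a strict order with a greatest element. -/
structure Ord (m : Mat) (bot top : ℕ) : Prop where
  tr : ∀ u v w, rel m u v → rel m v w → rel m u w
  irr : ∀ v, ¬rel m v v
  bd : ∀ u v, rel m u v → u < m.length ∧ v < m.length
  hb : bot < m.length
  ht : top < m.length
  le_top : ∀ u v, rel m u v → rel m u top

/-- The rank of an element. -/
def rank (m : Mat) (v : ℕ) : ℕ ×ₗ ℕ := toLex (cnt m v, v)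

/-- The set of indices with a property. -/
def fin (m : Mat) (X : ℕ → Bool) : Finset ℕ := (Finset.range m.length).filter fun v => X v = true

lemma mem_fin {m : Mat} {X : ℕ → Bool} {v : ℕ} : v ∈ fin m X ↔ v < m.length ∧ X v = true := by
  simp [fin]

lemma lo_iff {m : Mat} {u v : ℕ} : lo m u v = true ↔ rank m u < rank m v := by
  simp [lo, rank, Prod.Lex.toLex_lt_toLex]

lemma countP_lt {l : List ℕ} {p q : ℕ → Bool} (h : ∀ x, p x = true → q x = true) {y : ℕ}
    (hy : y ∈ l) (h1 : ¬p y = true) (h2 : q y = true) : l.countP p < l.countP q := by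
  induction l with
  | nil => simp at hy
  | cons x l ih =>
    have h3 : l.countP p ≤ l.countP q := List.countP_mono_left fun x _ => h x
    rcases List.mem_cons.1 hy with rfl | hy
    · simp [h1, h2]; omega
    · have := ih hy
      have := h x
      simp only [List.countP_cons]
      split_ifs <;> simp_all

lemma Ord.mo {m : Mat} {bot top : ℕ} (h : Ord m bot top) (u v : ℕ) (k : rel m u v) :
    rank m u < rank m v :=
  Prod.Lex.toLex_lt_toLex.2 (Or.inl (countP_lt (fun x hx => h.tr x u v hx k)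
    (List.mem_range.2 (h.bd u v k).1) (h.irr u) k))

lemma Ord.sys {m : Mat} {bot top : ℕ} (h : Ord m bot top) :
    Sys (rel m) (rank m) {v | v < m.length} top :=
  ⟨h.tr, h.mo, fun _ _ k => congrArg (fun p => (ofLex p).2) k, fun u v k => (h.bd u v k).2, h.ht,
    fun u v k => h.mo _ _ (h.le_top u v k)⟩

lemma mem_pairs {β γ : Type} {l : List β} {l' : List γ} {p : β × γ} :
    p ∈ pairs l l' ↔ p.1 ∈ l ∧ p.2 ∈ l' := by
  obtain ⟨x, y⟩ := p
  simp [pairs]

lemma memG_iff {m : Mat} {G : List Desc} {X : ℕ → Bool} :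
    memG m G X = true ↔ ∃ d ∈ G, fin m (inJ m d) = fin m X := by
  simp only [memG, List.any_eq_true, List.all_eq_true, idx, List.mem_range, beq_iff_eq,
    Finset.ext_iff, mem_fin]
  refine exists_congr fun d => and_congr_right fun _ => forall_congr' fun v => ?_
  by_cases h : v < m.length <;> simp [h]

lemma triB_iff {m : Mat} {t : T3} : triB m t = true ↔ Tri (rel m) t.1 t.2.1 t.2.2 := by
  simp [triB, Tri, rel]

lemma upS_iff {m : Mat} {t : T3} {v : ℕ} :
    upS m t v = true ↔ rel m t.1 v ∨ rel m t.2.1 v ∨ rel m t.2.2 v := by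
  simp [upS, rel]

lemma upW_iff {m : Mat} {t : T3} {v : ℕ} : upW m t v = true ↔
    v = t.1 ∨ v = t.2.1 ∨ v = t.2.2 ∨ rel m t.1 v ∨ rel m t.2.1 v ∨ rel m t.2.2 v := by
  simp [upW, upS_iff]

lemma cutB_iff {m : Mat} {c : T3 × ℕ} {v : ℕ} : cutB m c v = true ↔
    (rel m v c.1.1 ∨ rel m v c.1.2.1 ∨ rel m v c.1.2.2) ∧ rank m v < rank m c.2 := by
  simp [cutB, lo_iff, rel]

lemma mem_tris {m : Mat} {t : T3} :
    t ∈ tris m ↔ t.1 < m.length ∧ t.2.1 < m.length ∧ t.2.2 < m.length := by
  simp [tris, mem_pairs, idx]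

lemma rounds_concat (m : Mat) (l : List ℕ) (x : ℕ) :
    rounds m (l ++ [x]) = step m (rounds m l) := by
  simp [rounds]

theorem rounds_sound {m : Mat} {bot top : ℕ} (h : Ord m bot top) (l : List ℕ) :
    ∀ d ∈ rounds m l, Feas (rel m) (fin m (inJ m d)) := by
  induction l using List.reverseRecOn with
  | nil => simp [rounds]
  | append_singleton l x ih =>
    intro d hd
    rw [rounds_concat, step, List.mem_filter, Bool.or_eq_true] at hd
    rcases hd.2 with k | k
    · have : fin m (inJ m d) = ∅ := by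
        ext v
        simp only [List.all_eq_true, idx, List.mem_range] at k
        simpa [mem_fin] using k v
      exact this ▸ Feas.nil
    · simp only [List.any_eq_true, okT, Bool.and_eq_true, memG_iff, triB_iff, mem_tris] at k
      obtain ⟨t, ⟨b1, b2, b3⟩, k1, k2, k3, k4, ⟨d1, m1, e1⟩, d2, m2, e2⟩ := k
      refine Feas.of_step h.tr h.irr (mem_fin.2 ⟨b1, k2⟩) (mem_fin.2 ⟨b2, k3⟩) (mem_fin.2 ⟨b3, k4⟩)
        k1 (fun v => ?_) (fun v => ?_) (e1 ▸ ih d1 m1) (e2 ▸ ih d2 m2)
      · simp only [mem_fin, Bool.and_eq_true, Bool.not_eq_true', ← Bool.not_eq_true, upW_iff,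
          and_assoc]
      · simp only [mem_fin, Bool.and_eq_true, upS_iff, and_assoc]

lemma exists_desc {m : Mat} {bot top a b c s x y : ℕ} (h : Ord m bot top) {P Q R : Set ℕ}
    {J : Finset ℕ} (k : Shape (rel m) (rank m) {v | v < m.length} a b c P Q R s x y J) :
    ∃ d ∈ descs m, fin m (inJ m d) = J := by
  obtain ⟨ha, hb, hc, ⟨p1, hp1, p2, hp2, p3, hp3, p4, hp4, hP⟩,
    ⟨q1, hq1, q2, hq2, q3, hq3, q4, hq4, hQ⟩, ⟨r1, hr1, r2, hr2, r3, hr3, r4, hr4, hR⟩,
    hs, hx, hy, hJ⟩ := k
  refine ⟨((a, b, c), ((p1, p2, p3), p4), ((q1, q2, q3), q4), ((r1, r2, r3), r4), (s, x, y)),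
    ?_, ?_⟩
  · simp only [descs, mem_pairs, mem_tris, idx, List.mem_range]
    exact ⟨⟨ha, hb, hc⟩, ⟨⟨hp1, hp2, hp3⟩, hp4⟩, ⟨⟨hq1, hq2, hq3⟩, hq4⟩,
      ⟨⟨hr1, hr2, hr3⟩, hr4⟩, hs, hx, hy⟩
  · ext v
    simp only [mem_fin, inJ, Bool.and_eq_true, Bool.or_eq_true, Bool.not_eq_true',
      ← Bool.not_eq_true, upW_iff, upS_iff, cutB_iff, hJ, hP, hQ, hR]
    refine ⟨fun k => k.2, fun k => ⟨?_, k⟩⟩
    rcases k.1 with k | k | k <;> exact (h.bd _ _ k).2

theorem solve_iff {m : Mat} {bot top : ℕ} (h : Ord m bot top) : solve m bot top = true ↔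
    Feas (rel m) (fin m fun v => ent m bot v && ent m v top) := by
  rw [solve, memG_iff]
  refine ⟨fun ⟨d, h1, h2⟩ => h2 ▸ rounds_sound h _ d h1, fun hF => ?_⟩
  refine Node.good h.sys (fun k J => ∃ d ∈ rounds m (List.range k), fin m (inJ m d) = J) ?_ _
    (Node.root h.sys h.hb fun v => ?_) hF ?_
  · intro k J a b c P Q R s x y sh hJ
    obtain ⟨d, d1, rfl⟩ := exists_desc h sh
    refine ⟨d, ?_, rfl⟩
    rw [List.range_succ, rounds_concat, step, List.mem_filter, Bool.or_eq_true]
    refine ⟨d1, ?_⟩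
    rcases hJ with hJ | ⟨g, hg, p, hp, q, hq, A, B, ht, mA, mB, ⟨d1, m1, e1⟩, d2, m2, e2⟩
    · left
      simp only [List.all_eq_true, idx, List.mem_range]
      intro v hv
      have := Finset.ext_iff.1 hJ v
      simpa [mem_fin, hv] using this
    · right
      simp only [List.any_eq_true, okT, Bool.and_eq_true, memG_iff, triB_iff, mem_tris]
      rw [mem_fin] at hg hp hq
      refine ⟨(g, p, q), ⟨hg.1, hp.1, hq.1⟩, ht, hg.2, hp.2, hq.2, ⟨d1, m1, e1.trans ?_⟩,
        d2, m2, e2.trans ?_⟩
      · ext v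
        simp only [mA, mem_fin, Bool.and_eq_true, Bool.not_eq_true', ← Bool.not_eq_true, upW_iff,
          and_assoc]
      · ext v
        simp only [mB, mem_fin, Bool.and_eq_true, upS_iff, and_assoc]
  · simp only [mem_fin, Bool.and_eq_true]
    exact ⟨fun k => k.2, fun k => ⟨(h.bd _ _ k.1).2, k⟩⟩
  · refine (Finset.card_lt_card ⟨Finset.filter_subset _ _, fun k => ?_⟩).trans_eq
      (Finset.card_range _)
    have := (mem_fin.1 (k (Finset.mem_range.2 h.hb))).2
    simp only [Bool.and_eq_true] at this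
    exact h.irr _ this.1

end Vale.Agent.P324
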