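import Mathlib

/-!
Unit jobs with precedence constraints on three machines, and explicit binary codes.
-/

namespace Vale.Agent.P324

/-- A finite directed acyclic graph on the jobs `Fin n`, with `n ≥ 1`. -/
structure Dag where
  /-- number of jobs -/
  n : ℕ
  /-- there is a job -/
  pos : 1 ≤ n
  /-- the arcs -/
  arc : Fin n → Fin n → Bool
  /-- no directed cycle -/
  acyclic : ∀ v, ¬Relation.TransGen (fun u w => arc u w = true) v v

/-- A schedule of length `T` on three machines: slots in `1, …, T`, each slot used at most three
times, and the tail of every arc in an earlier slot than its head. -/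
def Dag.IsSchedule (G : Dag) (T : ℕ) (τ : Fin G.n → ℕ) : Prop :=
  (∀ v, 1 ≤ τ v ∧ τ v ≤ T) ∧ (∀ t, (Finset.univ.filter fun v => τ v = t).card ≤ 3) ∧
    ∀ u v, G.arc u v = true → τ u < τ v

/-- Code of a truth value. -/
def codeBool (b : Bool) : List Bool :=
  if b then [true, true, false, false, false] else [true, false, true, false, false]

/-- Code of a pair from the codes of its parts. -/
def codePair (a b : List Bool) : List Bool := true :: (a ++ b)

/-- Code of a list: each item is preceded by `true`, and `false` ends the list. -/
def codeList {α : Type} (f : α → List Bool) (l : List α) : List Bool :=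
  l.flatMap (fun x => true :: f x) ++ [false]

/-- Code of a natural number: the list of its binary digits. -/
def codeNat (k : ℕ) : List Bool := codeList codeBool k.bits

/-- Code of a graph: its adjacency matrix, row by row. -/
def Dag.code (G : Dag) : List Bool :=
  codeList (codeList codeBool) (List.ofFn fun u => List.ofFn fun v => G.arc u v)

end Vale.Agent.P324
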