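import Vale.Agent.P324.Struct

/-!
Perfect schedules and slot functions.
-/

namespace Vale.Agent.P324

variable {V : Type} [DecidableEq V] {r : V → V → Prop}

omit [DecidableEq V] in
lemma Feas.congr {r' : V → V → Prop} {J : Finset V} (h : Feas r J)
    (e : ∀ u ∈ J, ∀ v ∈ J, r' u v → r u v) : Feas r' J := by
  induction h with
  | nil => exact Feas.nil
  | @cons a b c B J ht h1 h2 _ ih =>
    have ha := (h2 a).2 (by simp)
    have hb := (h2 b).2 (by simp)
    have hc := (h2 c).2 (by simp)
    have hB : ∀ v ∈ B, v ∈ J := fun v hv => (h2 v).2 (by simp [hv])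
    refine Feas.cons ?_ ?_ h2 (ih fun u hu v hv => e u (hB u hu) v (hB v hv))
    · unfold Tri at *; grind
    · grind

omit [DecidableEq V] in
lemma card_le_of_slots {S : Finset V} {τ : V → ℕ} {k : ℕ} (h1 : ∀ v ∈ S, 1 ≤ τ v ∧ τ v ≤ k)
    (h2 : ∀ t, (S.filter fun v => τ v = t).card ≤ 3) : S.card ≤ 3 * k := by
  have := Finset.card_le_mul_card_image_of_maps_to (s := S) (t := Finset.Icc 1 k) (f := τ)
    (fun v hv => Finset.mem_Icc.2 (h1 v hv)) 3 fun t _ => h2 t
  simpa using this

/-- A schedule padded with unrelated jobs is a perfect schedule. -/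
theorem feas_of_slots (τ : V → ℕ) : ∀ (k : ℕ) (S D : Finset V), Disjoint S D →
    S.card + D.card = 3 * k → (∀ u ∈ D, ∀ v, v ∈ S ∨ v ∈ D → ¬r u v ∧ ¬r v u) →
    (∀ v ∈ S, 1 ≤ τ v ∧ τ v ≤ k) → (∀ t, (S.filter fun v => τ v = t).card ≤ 3) →
    (∀ u ∈ S, ∀ v ∈ S, r u v → τ u < τ v) → Feas r (S ∪ D) := by
  intro k
  induction k with
  | zero =>
    intro S D _ h _ _ _ _
    rw [Finset.card_eq_zero.1 (by omega : S.card = 0),
      Finset.card_eq_zero.1 (by omega : D.card = 0)]
    exact Feas.nil
  | succ k ih =>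
    intro S D hd hc hD h1 h2 h3
    have k1 : ∀ v ∈ S.filter fun v => ¬τ v = k + 1, 1 ≤ τ v ∧ τ v ≤ k := fun v hv => by
      have := Finset.mem_filter.1 hv
      have := h1 v this.1
      omega
    have k2 : ∀ t, ((S.filter fun v => ¬τ v = k + 1).filter fun v => τ v = t).card ≤ 3 :=
      fun t => (Finset.card_le_card
        (Finset.filter_subset_filter _ (Finset.filter_subset _ _))).trans (h2 t)
    have k3 := card_le_of_slots k1 k2
    have k4 := Finset.card_filter_add_card_filter_not (s := S) fun v => τ v = k + 1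
    have k5 := h2 (k + 1)
    obtain ⟨D₁, d1, d2⟩ := Finset.exists_subset_card_eq (s := D)
      (n := 3 - (S.filter fun v => τ v = k + 1).card) (by omega)
    have hd' := Finset.disjoint_left.1 hd
    have k6 : ((S.filter fun v => τ v = k + 1) ∪ D₁).card = 3 := by
      rw [Finset.card_union_of_disjoint
        (hd.mono (Finset.filter_subset _ _) d1)]
      omega
    obtain ⟨a, b, c, n1, n2, n3, e⟩ := Finset.card_eq_three.1 k6
    have e' : ∀ v, (v ∈ S ∧ τ v = k + 1) ∨ v ∈ D₁ ↔ v = a ∨ v = b ∨ v = c := fun v => by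
      simpa using Finset.ext_iff.1 e v
    have k7 := Finset.card_sdiff_add_card_eq_card d1
    have k8 := ih (S.filter fun v => ¬τ v = k + 1) (D \ D₁)
      (hd.mono (Finset.filter_subset _ _) Finset.sdiff_subset) (by omega) (by grind) k1 k2
      (by grind)
    have k9 : ∀ u, u = a ∨ u = b ∨ u = c → ∀ v, v ∈ S ∨ v ∈ D → ¬r u v := by
      intro u hu v hv huv
      rcases (e' u).2 hu with k | k
      · rcases hv with hv | hv
        · have := h3 u k.1 v hv huv
          have := h1 v hv
          omega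
        · exact (hD v hv u (Or.inl k.1)).2 huv
      · exact (hD u (d1 k) v hv).1 huv
    have k10 : ∀ u, u = a ∨ u = b ∨ u = c → u ∈ S ∨ u ∈ D := fun u hu => by
      rcases (e' u).2 hu with k | k
      · exact Or.inl k.1
      · exact Or.inr (d1 k)
    refine Split.feas (B := ∅) (a := a) (b := b) (c := c)
      ⟨k8, Feas.nil, ?_, ?_, by simp, by simp, ?_⟩
    · unfold Tri; grind
    · grind
    · grind

/-- A perfect schedule has a slot function. -/
theorem Feas.slots (irr : ∀ v, ¬r v v) {J : Finset V} (h : Feas r J) : ∃ τ : V → ℕ,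
    (∀ v ∈ J, 1 ≤ τ v ∧ 3 * τ v ≤ J.card) ∧ (∀ t, (J.filter fun v => τ v = t).card ≤ 3) ∧
      ∀ u ∈ J, ∀ v ∈ J, r u v → τ u < τ v := by
  induction h with
  | nil => exact ⟨fun _ => 0, by simp, by simp, by simp⟩
  | @cons a b c B J ht h1 h2 _ ih =>
    obtain ⟨τ, k1, k2, k3⟩ := ih
    unfold Tri at ht
    have hc : J.card = B.card + 3 := by
      rw [show J = insert a (insert b (insert c B)) by grind, Finset.card_insert_of_notMem,
        Finset.card_insert_of_notMem, Finset.card_insert_of_notMem] <;> grind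
    refine ⟨fun v => if v ∈ B then τ v + 1 else 1, by grind, fun t => ?_, by grind⟩
    by_cases ht : t = 1
    · exact (Finset.card_le_card (t := {a, b, c}) (by grind)).trans Finset.card_le_three
    · exact (Finset.card_le_card (by grind)).trans (k2 (t - 1))

omit [DecidableEq V] in
/-- Empty slots can be removed. -/
theorem compress [Fintype V] {W : Type} [LinearOrder W] (τ : V → W) : ∃ σ : V → ℕ,
    (∀ v, 1 ≤ σ v ∧ σ v ≤ Fintype.card V) ∧ ∀ u v, τ u < τ v → σ u < σ v := by
  refine ⟨fun v => ((Finset.univ.image τ).filter fun t => t ≤ τ v).card, fun v => ⟨?_, ?_⟩,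
    fun u v h => Finset.card_lt_card ⟨by grind, fun k => ?_⟩⟩
  · exact Finset.card_pos.2 ⟨τ v, by simp⟩
  · exact (Finset.card_filter_le _ _).trans Finset.card_image_le
  · have := k (show τ v ∈ _ by simp)
    simp only [Finset.mem_filter] at this
    exact this.2.not_gt h

end Vale.Agent.P324
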