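import Vale.Agent.P324.Algo
import Vale.Agent.P324.Sched
import Vale.Agent.P324.Defs

/-!
Transitive closure, padding, and the decision procedure.
-/

open Vale.Agent.Lib.TM Turing

namespace Vale.Agent.P324

/-- Tabulation of a matrix. -/
def mat (l : List ℕ) (f : ℕ → ℕ → Bool) : Mat := l.map fun u => l.map fun v => f u v

lemma rel_mat {k u v : ℕ} {f : ℕ → ℕ → Bool} :
    rel (mat (List.range k) f) u v ↔ u < k ∧ v < k ∧ f u v = true := by
  unfold rel ent mat
  by_cases hu : u < k <;> by_cases hv : v < k <;> simp [List.getD_eq_getElem?_getD, hu, hv]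

@[simp] lemma length_mat (l : List ℕ) (f : ℕ → ℕ → Bool) : (mat l f).length = l.length := by
  simp [mat]

lemma sz_mat (l : List ℕ) (f : ℕ → ℕ → Bool) :
    sz (mat l f) ≤ l.length * (l.length * 6 + 2) + 1 := by
  refine (sz_list_le (B := l.length * 6 + 1) fun x hx => ?_).trans (by simp)
  obtain ⟨u, -, rfl⟩ := List.mem_map.1 hx
  rw [sz_bits, List.length_map]
  omega

/-- One step of the closure. -/
def wstep (a m : Mat) (w : ℕ) : Mat :=
  mat (idx a) fun u v => ent m u v || (ent m u w && ent m w v)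

/-- Transitive closure. -/
def clos (a : Mat) : Mat := (idx a).foldl (wstep a) a

/-- Padding to `N` jobs, with a least element `N` and a greatest element `N + 1`. -/
def big (c : Mat) (N : ℕ) : Mat :=
  mat (List.range (N + 2)) fun u v =>
    (u == N && !(v == N)) || ((v == N + 1 && !(u == N + 1)) || ent c u v)

/-- The padded order for a number of slots. -/
def pad (a : Mat) (T : ℕ) : Mat := big (clos a) (3 * min T a.length)

/-- The decision procedure. -/
def dec (a : Mat) (T : ℕ) : Bool :=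
  decide (a.length ≤ 3 * min T a.length) &&
    solve (pad a T) (3 * min T a.length) (3 * min T a.length + 1)

section time

variable {α : Type} [Enc α] {e : ℕ}

@[fun_prop] theorem ct_mat {l : α → List ℕ} {f : α → ℕ → ℕ → Bool} (hl : CT e l)
    (hf : CT e fun p : (α × ℕ) × ℕ => f p.1.1 p.1.2 p.2) : CT e fun a => mat (l a) (f a) :=
  CT.map (f := fun a u => (l a).map fun v => f a u v)
    (CT.map (f := fun (p : α × ℕ) v => f p.1 p.2 v) hf (by fun_prop)) hl

@[fun_prop] theorem ct_wstep {a m : α → Mat} {w : α → ℕ} (ha : CT e a) (hm : CT e m)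
    (hw : CT e w) : CT e fun x => wstep (a x) (m x) (w x) :=
  ct_mat (by fun_prop) (by fun_prop)

@[fun_prop] theorem ct_clos {a : α → Mat} (ha : CT e a) : CT e fun x => clos (a x) := by
  have h := ha.bd_length
  exact CT.foldl_inv (g := fun x m w => wstep (a x) m w) (by fun_prop) ha (ct_idx ha)
    (ha.size.add ((h.mul ((h.mul (Bd.const 6)).add (Bd.const 2))).add (Bd.const 1)))
    (fun x s _ => sz s ≤ sz (a x) + ((a x).length * ((a x).length * 6 + 2) + 1))
    (fun _ => Nat.le_add_right _ _)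
    (fun x _ _ _ _ => (sz_mat _ _).trans (by simp [idx])) fun _ _ _ h => h

@[fun_prop] theorem ct_pad {a : α → Mat} {T : α → ℕ} (ha : CT e a) (hT : CT e T) :
    CT e fun x => pad (a x) (T x) := by
  have h : CT e fun x => List.range (3 * min (T x) (a x).length + 2) :=
    CT.range (by fun_prop) ((((Bd.const 3).mul ha.bd_length).add (Bd.const 2)).of_le
      fun x => by omega)
  exact ct_mat h (by fun_prop)

@[fun_prop] theorem ct_dec {a : α → Mat} {T : α → ℕ} (ha : CT e a) (hT : CT e T) :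
    CT e fun x => dec (a x) (T x) := by unfold dec; fun_prop

end time

lemma rel_wstep {a m : Mat} {w u v : ℕ} : rel (wstep a m w) u v ↔
    u < a.length ∧ v < a.length ∧ (rel m u v ∨ rel m u w ∧ rel m w v) := by
  rw [wstep, idx, rel_mat]; simp [rel]

lemma foldl_wstep (a : Mat) (R : ℕ → ℕ → Prop) (hR : ∀ u v w, R u v → R v w → R u w) :
    ∀ (l : List ℕ) (m : Mat) (W : Set ℕ), (∀ u v, rel m u v → u < a.length ∧ v < a.length) →
      (∀ u v, rel m u v → R u v) → (∀ w ∈ W, ∀ u v, rel m u w → rel m w v → rel m u v) →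
      (∀ u v, rel m u v → rel (l.foldl (wstep a) m) u v) ∧
      (∀ u v, rel (l.foldl (wstep a) m) u v → u < a.length ∧ v < a.length ∧ R u v) ∧
      ∀ w, w ∈ W ∨ w ∈ l → ∀ u v, rel (l.foldl (wstep a) m) u w → rel (l.foldl (wstep a) m) w v →
        rel (l.foldl (wstep a) m) u v := by
  intro l
  induction l with
  | nil => intro m W h1 h2 h3; simp only [List.foldl_nil]; grind
  | cons x l ih =>
    intro m W h1 h2 h3
    obtain ⟨k1, k2, k3⟩ := ih (wstep a m x) (insert x W) (by simp only [rel_wstep]; grind)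
      (by simp only [rel_wstep]; grind) (by simp only [rel_wstep]; grind)
    refine ⟨fun u v h => k1 u v (rel_wstep.2 ⟨(h1 u v h).1, (h1 u v h).2, Or.inl h⟩), k2,
      fun w hw => k3 w (by grind)⟩

/-- The adjacency matrix. -/
def raw (G : Dag) : Mat := List.ofFn fun u => List.ofFn fun v => G.arc u v

@[simp] lemma length_raw (G : Dag) : (raw G).length = G.n := by simp [raw]

lemma rel_raw {G : Dag} {u v : ℕ} :
    rel (raw G) u v ↔ ∃ hu hv, G.arc ⟨u, hu⟩ ⟨v, hv⟩ = true := by
  unfold rel ent raw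
  by_cases hu : u < G.n <;> by_cases hv : v < G.n <;> simp [List.getD_eq_getElem?_getD, hu, hv]

lemma clos_spec (G : Dag) : (∀ u v : Fin G.n, G.arc u v = true → rel (clos (raw G)) u v) ∧
    (∀ u v, rel (clos (raw G)) u v → ∃ hu hv,
      Relation.TransGen (fun u w => G.arc u w = true) ⟨u, hu⟩ ⟨v, hv⟩) ∧
    ∀ u v w, rel (clos (raw G)) u v → rel (clos (raw G)) v w → rel (clos (raw G)) u w := by
  obtain ⟨k1, k2, k3⟩ := foldl_wstep (raw G) (fun u v => ∃ hu hv,
      Relation.TransGen (fun u w => G.arc u w = true) ⟨u, hu⟩ ⟨v, hv⟩)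
    (fun u v w ⟨hu, _, h⟩ ⟨_, hw, h'⟩ => ⟨hu, hw, h.trans h'⟩) (idx (raw G)) (raw G) ∅
    (fun u v h => let ⟨hu, hv, _⟩ := rel_raw.1 h; by simp [hu, hv])
    (fun u v h => let ⟨hu, hv, h'⟩ := rel_raw.1 h; ⟨hu, hv, .single h'⟩) (by simp)
  exact ⟨fun u v h => k1 u v (rel_raw.2 ⟨u.2, v.2, h⟩), fun u v h => (k2 u v h).2.2,
    fun u v w h h' => k3 v (Or.inr (List.mem_range.2 (k2 u v h).2.1)) u w h h'⟩

lemma rel_big {c : Mat} {N u v : ℕ} : rel (big c N) u v ↔ u < N + 2 ∧ v < N + 2 ∧
    ((u = N ∧ v ≠ N) ∨ (v = N + 1 ∧ u ≠ N + 1) ∨ rel c u v) := by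
  rw [big, rel_mat]; simp [rel]

lemma ord_big (G : Dag) {N : ℕ} (h : G.n ≤ N) : Ord (big (clos (raw G)) N) N (N + 1) := by
  obtain ⟨-, k2, k3⟩ := clos_spec G
  have k4 : ∀ u v, rel (clos (raw G)) u v → u < N ∧ v < N := fun u v k =>
    let ⟨hu, hv, _⟩ := k2 u v k; ⟨by omega, by omega⟩
  have k5 : ∀ v, ¬rel (clos (raw G)) v v := fun v k => let ⟨_, _, k'⟩ := k2 v v k; G.acyclic _ k'
  have hl : (big (clos (raw G)) N).length = N + 2 := by simp [big]
  refine ⟨?_, ?_, ?_, by omega, by omega, ?_⟩ <;> simp only [rel_big, hl] <;> grind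

lemma fin_big (c : Mat) (N : ℕ) (h : ∀ u v, rel c u v → u < N ∧ v < N) :
    (fin (big c N) fun v => ent (big c N) N v && ent (big c N) v (N + 1)) = Finset.range N := by
  ext v
  have hl : (big c N).length = N + 2 := by simp [big]
  have h1 := rel_big (c := c) (N := N) (u := N) (v := v)
  have h2 := rel_big (c := c) (N := N) (u := v) (v := N + 1)
  simp only [rel] at h1 h2
  simp only [mem_fin, hl, Bool.and_eq_true, h1, h2, Finset.mem_range]
  have := h N v
  have := h v (N + 1)
  unfold rel at *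
  grind

theorem feas_of_schedule (G : Dag) {T : ℕ} {τ : Fin G.n → ℕ} (h : G.IsSchedule T τ)
    (hn : G.n ≤ 3 * T) : Feas (rel (big (clos (raw G)) (3 * T))) (Finset.range (3 * T)) := by
  obtain ⟨-, k2, -⟩ := clos_spec G
  have k4 : ∀ u v, rel (clos (raw G)) u v → u < G.n ∧ v < G.n := fun u v k =>
    let ⟨hu, hv, _⟩ := k2 u v k; ⟨hu, hv⟩
  have e : Finset.range (3 * T) = Finset.range G.n ∪ Finset.Ico G.n (3 * T) := by
    ext v; simp; omega
  rw [e]
  refine feas_of_slots (fun v => if hv : v < G.n then τ ⟨v, hv⟩ else 0) T _ _ ?_ ?_ ?_ ?_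
    (fun t => ?_) ?_
  · rw [Finset.disjoint_left]; simp; omega
  · simp; omega
  · simp only [rel_big]; grind
  · intro v hv
    rw [dif_pos (Finset.mem_range.1 hv)]
    exact h.1 _
  · refine le_trans (Finset.card_le_card (t := (Finset.univ.filter fun v => τ v = t).image Fin.val)
      fun v hv => ?_) (Finset.card_image_le.trans (h.2.1 t))
    simp only [Finset.mem_filter, Finset.mem_range] at hv
    exact Finset.mem_image.2 ⟨⟨v, hv.1⟩, by simpa [hv.1] using hv.2, rfl⟩
  · intro u hu v hv k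
    rw [Finset.mem_range] at hu hv
    obtain ⟨_, _, k'⟩ := k2 u v (by rw [rel_big] at k; grind)
    rw [dif_pos hu, dif_pos hv]
    have : ∀ a b, Relation.TransGen (fun u w => G.arc u w = true) a b → τ a < τ b := by
      intro a b hab
      induction hab with
      | single k => exact h.2.2 _ _ k
      | tail _ k ih => exact ih.trans (h.2.2 _ _ k)
    exact this _ _ k'

theorem schedule_of_slots (G : Dag) {T : ℕ} (hn : G.n ≤ 3 * T) {τ : ℕ → ℕ}
    (h1 : ∀ v < 3 * T, 1 ≤ τ v ∧ τ v ≤ T)
    (h2 : ∀ t, ((Finset.range (3 * T)).filter fun v => τ v = t).card ≤ 3)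
    (h3 : ∀ u < 3 * T, ∀ v < 3 * T, rel (big (clos (raw G)) (3 * T)) u v → τ u < τ v) :
    G.IsSchedule T fun v => τ v := by
  obtain ⟨k1, -, -⟩ := clos_spec G
  refine ⟨fun v => h1 v (by omega), fun t => le_trans (Finset.card_le_card_of_injOn Fin.val
    (fun v hv => ?_) Fin.val_injective.injOn) (h2 t), fun u v k => h3 u (by omega) v (by omega)
    (rel_big.2 ⟨by omega, by omega, Or.inr (Or.inr (k1 u v k))⟩)⟩
  simp only [Finset.coe_filter, Finset.mem_univ, true_and, Set.mem_ofPred_eq,
    Finset.mem_range] at hv ⊢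
  exact ⟨by omega, hv⟩

lemma clos_lt (G : Dag) {N : ℕ} (hn : G.n ≤ N) (u v : ℕ) (k : rel (clos (raw G)) u v) :
    u < N ∧ v < N :=
  let ⟨hu, hv, _⟩ := (clos_spec G).2.1 u v k; ⟨by omega, by omega⟩

theorem schedule_min (G : Dag) {T : ℕ} {τ : Fin G.n → ℕ} (h : G.IsSchedule T τ) :
    ∃ σ, G.IsSchedule (min T G.n) σ := by
  rcases le_total T G.n with k | k
  · exact ⟨τ, by rwa [min_eq_left k]⟩
  obtain ⟨σ, h1, h2⟩ := compress τ
  refine ⟨σ, by simpa [min_eq_right k] using h1, fun t => ?_, fun u v k => h2 u v (h.2.2 u v k)⟩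
  rcases (Finset.univ.filter fun v => σ v = t).eq_empty_or_nonempty with k | ⟨w, hw⟩
  · simp [k]
  refine le_trans (Finset.card_le_card fun v hv => ?_) (h.2.1 (τ w))
  simp only [Finset.mem_filter, Finset.mem_univ, true_and] at hv hw ⊢
  have := h2 v w
  have := h2 w v
  omega

theorem dec_iff (G : Dag) (T : ℕ) : dec (raw G) T = true ↔ ∃ τ, G.IsSchedule T τ := by
  simp only [dec, pad, length_raw, Bool.and_eq_true, decide_eq_true_iff]
  constructor
  · rintro ⟨hn, h⟩
    rw [solve_iff (ord_big G hn), fin_big _ _ (clos_lt G hn)] at h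
    obtain ⟨τ, h1, h2, h3⟩ := h.slots (ord_big G hn).irr
    simp only [Finset.mem_range, Finset.card_range] at h1 h3
    obtain ⟨k1, k2, k3⟩ := schedule_of_slots G hn (τ := τ)
      (fun v hv => by have := h1 v hv; omega) h2 h3
    exact ⟨_, fun v => ⟨(k1 v).1, (k1 v).2.trans (min_le_left _ _)⟩, k2, k3⟩
  · rintro ⟨τ, h⟩
    obtain ⟨σ, h'⟩ := schedule_min G h
    have hn : G.n ≤ 3 * min T G.n := by
      simpa using card_le_of_slots (S := Finset.univ) (fun v _ => h'.1 v) h'.2.1
    rw [solve_iff (ord_big G hn), fin_big _ _ (clos_lt G hn)]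
    exact ⟨hn, feas_of_schedule G h' hn⟩

lemma code_bool (b : Bool) : (enc b).code = codeBool b := by cases b <;> rfl

lemma code_pair {β γ : Type} [Enc β] [Enc γ] (x : β) (y : γ) :
    (enc (x, y)).code = codePair (enc x).code (enc y).code := rfl

lemma code_list {β : Type} [Enc β] (l : List β) (f : β → List Bool)
    (h : ∀ x, (enc x).code = f x) : (enc l).code = codeList f l := by
  induction l with
  | nil => rfl
  | cons x l ih => simp [enc_cons, Tr.code, codeList, h, ih]

lemma code_nat (k : ℕ) : (enc k).code = codeNat k := code_list _ _ code_bool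

lemma code_raw (G : Dag) : (enc (raw G)).code = G.code :=
  code_list _ _ fun _ => code_list _ _ code_bool

/-- Transfer of a polynomial-time computation along codes. -/
theorem export_poly {α β γ δ : Type} [Enc α] [Enc β] {f : α → β} (h : CT 0 f) (i : γ → α)
    (ci : γ → List Bool) (co : δ → List Bool) (F : γ → δ) (hi : ∀ x, (enc (i x)).code = ci x)
    (hF : ∀ x, (enc (f (i x))).code = co (F x)) :
    ∃ M : TM2ComputableInPolyTime ci co F, ∀ k, Finite (M.tm.Γ k) := by
  obtain ⟨M, hM⟩ := h.polyTime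
  refine ⟨{ toTM2ComputableAux := M.toTM2ComputableAux
            time := M.time
            outputsFun := fun x => ?_ }, hM⟩
  have := M.outputsFun (i x)
  rwa [hi, hF] at this

open Classical in
theorem decision : ∃ M : TM2ComputableInPolyTime
    (fun p : Dag × ℕ => codePair p.1.code (codeNat p.2)) codeBool
    (fun p => decide (∃ τ, p.1.IsSchedule p.2 τ)), ∀ k, Finite (M.tm.Γ k) :=
  export_poly (f := fun p : Mat × ℕ => dec p.1 p.2) (by fun_prop) (fun p => (raw p.1, p.2)) _ _ _
    (fun p => by rw [code_pair, code_raw, code_nat]) fun p => by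
      rw [code_bool]
      congr 1
      rw [Bool.eq_iff_iff, decide_eq_true_iff, dec_iff]

end Vale.Agent.P324
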