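import Vale.Agent.P324.Decide

/-!
Construction of an optimal schedule from the decision procedure.
-/

open Vale.Agent.Lib.TM Turing

namespace Vale.Agent.P324

/-- Restriction to the elements without a slot. -/
def res (m : Mat) (τ : List ℕ) : Mat :=
  mat (idx m) fun u v => ent m u v && (τ.getD u 0 == 0 && τ.getD v 0 == 0)

/-- Giving a slot to a triple. -/
def put (m : Mat) (τ : List ℕ) (t : T3) (i : ℕ) : List ℕ :=
  (idx m).map fun v => bif v == t.1 || (v == t.2.1 || v == t.2.2) then i else τ.getD v 0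

/-- Jobs without a slot. -/
def act (N : ℕ) (τ : List ℕ) (v : ℕ) : Bool := decide (v < N) && τ.getD v 0 == 0

/-- Whether a triple can fill the next slot. -/
def okS (m : Mat) (N : ℕ) (τ : List ℕ) (i : ℕ) (t : T3) : Bool :=
  triB m t && (act N τ t.1 && (act N τ t.2.1 && (act N τ t.2.2 &&
    ((idx m).all (fun v => !act N τ v || (!ent m v t.1 && (!ent m v t.2.1 && !ent m v t.2.2))) &&
      solve (res m (put m τ t i)) N (N + 1)))))

/-- Filling one slot. -/
def round (m : Mat) (N : ℕ) (τ : List ℕ) (i : ℕ) : List ℕ :=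
  put m τ (((tris m).filter fun t => okS m N τ (i + 1) t).headD (0, 0, 0)) (i + 1)

/-- Filling all slots. -/
def sched (m : Mat) (N T : ℕ) : List ℕ := (List.range T).foldl (round m N) []

/-- The least makespan. -/
def opt (a : Mat) : ℕ := ((idx a).filter fun T => dec a (T + 1)).headD 0 + 1

/-- The slots of the jobs. -/
def out (a : Mat) : List ℕ :=
  (idx a).map fun v => (sched (pad a (opt a)) (3 * opt a) (min (opt a) a.length)).getD v 0

section time

variable {α : Type} [Enc α] {e : ℕ}

@[fun_prop] theorem ct_res {m : α → Mat} {τ : α → List ℕ} (hm : CT e m) (hτ : CT e τ) :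
    CT e fun a => res (m a) (τ a) := ct_mat (by fun_prop) (by fun_prop)

@[fun_prop] theorem ct_put {m : α → Mat} {τ : α → List ℕ} {t : α → T3} {i : α → ℕ} (hm : CT e m)
    (hτ : CT e τ) (ht : CT e t) (hi : CT e i) : CT e fun a => put (m a) (τ a) (t a) (i a) := by
  unfold put; fun_prop

@[fun_prop] theorem ct_act {N v : α → ℕ} {τ : α → List ℕ} (hN : CT e N) (hτ : CT e τ)
    (hv : CT e v) : CT e fun a => act (N a) (τ a) (v a) := by unfold act; fun_prop

@[fun_prop] theorem ct_okS {m : α → Mat} {τ : α → List ℕ} {t : α → T3} {N i : α → ℕ}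
    (hm : CT e m) (hN : CT e N) (hτ : CT e τ) (hi : CT e i) (ht : CT e t) :
    CT e fun a => okS (m a) (N a) (τ a) (i a) (t a) := by unfold okS; fun_prop

@[fun_prop] theorem ct_round {m : α → Mat} {τ : α → List ℕ} {N i : α → ℕ}
    (hm : CT e m) (hN : CT e N) (hτ : CT e τ) (hi : CT e i) :
    CT e fun a => round (m a) (N a) (τ a) (i a) := by unfold round; fun_prop

lemma getD_le {τ : List ℕ} {T : ℕ} (h : ∀ y ∈ τ, y ≤ T) (v : ℕ) : τ.getD v 0 ≤ T := by
  rw [List.getD_eq_getElem?_getD]
  cases k : τ[v]? with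
  | none => simp
  | some y => exact h y (List.mem_of_getElem? k)

theorem ct_sched {m : α → Mat} {N T : α → ℕ} (hm : CT e m) (hN : CT e N) (hT : CT e T)
    (hB : Bd 0 T) : CT e fun a => sched (m a) (N a) (T a) := by
  refine CT.foldl_inv (g := fun a τ i => round (m a) (N a) τ i) (by fun_prop) (CT.const _)
    (hT.range hB) ((hm.bd_length.mul (hT.size.add (Bd.const 1))).add (Bd.const 1))
    (fun a s r => (∀ x ∈ r, x < T a) ∧ (∀ y ∈ s, y ≤ T a) ∧ s.length ≤ (m a).length)
    (fun a => by simp) (fun a s x r ⟨h1, h2, h3⟩ => ⟨fun y hy => h1 y (by simp [hy]),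
      fun y hy => ?_, by simp [round, put, idx]⟩) fun a s r ⟨_, h2, h3⟩ => ?_
  · obtain ⟨v, -, rfl⟩ := List.mem_map.1 hy
    have k1 := h1 x (by simp)
    have k2 := getD_le h2 v
    rw [Bool.cond_eq_ite]
    split_ifs <;> omega
  · exact (sz_list_le fun y hy => sz_mono (h2 y hy)).trans
      (Nat.add_le_add_right (Nat.mul_le_mul_right _ h3) _)

@[fun_prop] theorem ct_opt {a : α → Mat} (ha : CT e a) : CT e fun x => opt (a x) := by
  unfold opt; fun_prop

theorem ct_out : CT 0 out := by
  have h : CT 0 fun a : Mat => sched (pad a (opt a)) (3 * opt a) (min (opt a) a.length) :=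
    ct_sched (by fun_prop) (by fun_prop) (by fun_prop)
      ((CT.id (e := 0)).bd_length.of_le fun _ => min_le_right _ _)
  have h' := h.comp (g := fun p : Mat × ℕ => p.1) (by fun_prop)
  exact CT.map (f := fun a v => (sched (pad a (opt a)) (3 * opt a)
    (min (opt a) a.length)).getD v 0) (by fun_prop) (by fun_prop)

end time

lemma rel_res {m : Mat} {τ : List ℕ} {u v : ℕ} : rel (res m τ) u v ↔
    u < m.length ∧ v < m.length ∧ rel m u v ∧ τ.getD u 0 = 0 ∧ τ.getD v 0 = 0 := by
  rw [res, idx, rel_mat]; simp [rel]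

lemma getD_put {m : Mat} {τ : List ℕ} {t : T3} {i v : ℕ} : (put m τ t i).getD v 0 =
    if v < m.length then (if v = t.1 ∨ v = t.2.1 ∨ v = t.2.2 then i else τ.getD v 0) else 0 := by
  unfold put idx
  by_cases hv : v < m.length <;> simp [List.getD_eq_getElem?_getD, hv, Bool.cond_eq_ite]

lemma solve_res {m : Mat} {N : ℕ} (h : Ord m N (N + 1))
    (hN : ∀ v, rel m N v ∧ rel m v (N + 1) ↔ v < N) {τ : List ℕ} (h1 : τ.getD N 0 = 0)
    (h2 : τ.getD (N + 1) 0 = 0) : solve (res m τ) N (N + 1) = true ↔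
      Feas (rel m) ((Finset.range N).filter fun v => τ.getD v 0 = 0) := by
  have hl : (res m τ).length = m.length := by simp [res, idx]
  obtain ⟨k1, k2, k3, k4, k5, k6⟩ := h
  have ho : Ord (res m τ) N (N + 1) := by
    refine ⟨?_, ?_, ?_, by omega, by omega, ?_⟩ <;> simp only [rel_res, hl] <;> grind
  have e : (fin (res m τ) fun v => ent (res m τ) N v && ent (res m τ) v (N + 1)) =
      (Finset.range N).filter fun v => τ.getD v 0 = 0 := by
    ext v
    have e1 := rel_res (m := m) (τ := τ) (u := N) (v := v)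
    have e2 := rel_res (m := m) (τ := τ) (u := v) (v := N + 1)
    have e3 := hN v
    rw [rel] at e1 e2
    simp only [mem_fin, hl, Bool.and_eq_true, e1, e2, Finset.mem_filter, Finset.mem_range]
    grind
  rw [solve_iff ho, e]
  refine ⟨fun k => k.congr fun u hu v hv k' => ?_,
    fun k => k.congr fun u _ v _ k' => (rel_res.1 k').2.2.1⟩
  exact rel_res.2 ⟨(k3 u v k').1, (k3 u v k').2, k', (Finset.mem_filter.1 hu).2,
    (Finset.mem_filter.1 hv).2⟩

/-- The invariant after `i` slots. -/
structure Inv (m : Mat) (N i : ℕ) (τ : ℕ → ℕ) : Prop where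
  feas : Feas (rel m) ((Finset.range N).filter fun v => τ v = 0)
  card : ((Finset.range N).filter fun v => τ v = 0).card + 3 * i = N
  le : ∀ v, τ v ≤ i
  zero : ∀ v, N ≤ v → τ v = 0
  fib : ∀ t, t ≠ 0 → ((Finset.range N).filter fun v => τ v = t).card ≤ 3
  prec : ∀ u < N, ∀ v < N, rel m u v → τ v ≠ 0 → τ u ≠ 0 ∧ τ u < τ v

lemma okS_iff {m : Mat} {N : ℕ} (h : Ord m N (N + 1))
    (hN : ∀ v, rel m N v ∧ rel m v (N + 1) ↔ v < N) {τ : List ℕ}
    (hz : ∀ v, N ≤ v → τ.getD v 0 = 0) {i : ℕ} {t : T3} : okS m N τ i t = true ↔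
      Tri (rel m) t.1 t.2.1 t.2.2 ∧ (t.1 < N ∧ τ.getD t.1 0 = 0) ∧
      (t.2.1 < N ∧ τ.getD t.2.1 0 = 0) ∧ (t.2.2 < N ∧ τ.getD t.2.2 0 = 0) ∧
      (∀ v < N, τ.getD v 0 = 0 → ¬rel m v t.1 ∧ ¬rel m v t.2.1 ∧ ¬rel m v t.2.2) ∧
      Feas (rel m) ((Finset.range N).filter fun v => (put m τ t i).getD v 0 = 0) := by
  have hb := h.ht
  simp only [okS, Bool.and_eq_true, triB_iff, act, decide_eq_true_iff, beq_iff_eq]
  refine and_congr_right fun _ => and_congr_right fun k1 => and_congr_right fun k2 =>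
    and_congr_right fun k3 => and_congr ?_ (solve_res h hN ?_ ?_)
  · simp only [List.all_eq_true, idx, List.mem_range, rel]
    refine forall_congr' fun v => ?_
    by_cases hv : v < N
    · simp [hv, show v < m.length by omega, imp_iff_not_or]
    · simp [hv]
  · have := hz N le_rfl
    rw [getD_put]; grind
  · have := hz (N + 1) (by omega)
    rw [getD_put]; grind

lemma Inv.round {m : Mat} {N i : ℕ} (h : Ord m N (N + 1))
    (hN : ∀ v, rel m N v ∧ rel m v (N + 1) ↔ v < N) {τ : List ℕ}
    (k : Inv m N i fun v => τ.getD v 0) (hi : 3 * i < N) :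
    Inv m N (i + 1) fun v => (round m N τ i).getD v 0 := by
  obtain ⟨k1, k2, k3, k4, k5, k6⟩ := k
  have hb := h.ht
  have irr := h.irr
  have hex : ∃ t ∈ tris m, okS m N τ (i + 1) t = true := by
    generalize hJ : ((Finset.range N).filter fun v => τ.getD v 0 = 0) = J at k1 k2
    have hJ' : ∀ v, v ∈ J ↔ v < N ∧ τ.getD v 0 = 0 := fun v => by simp [← hJ]
    cases k1 with
    | nil => simp at k2; omega
    | @cons a b c B _ ht h1 h2 hB =>
      have ha := (hJ' a).1 ((h2 a).2 (by simp))
      have hb' := (hJ' b).1 ((h2 b).2 (by simp))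
      have hc := (hJ' c).1 ((h2 c).2 (by simp))
      refine ⟨(a, b, c), mem_tris.2 ⟨ha.1.trans (by omega), hb'.1.trans (by omega),
        hc.1.trans (by omega)⟩, (okS_iff h hN k4).2 ⟨ht, ha, hb', hc, ?_, ?_⟩⟩
      · unfold Tri at ht
        grind
      · have : ((Finset.range N).filter fun v => (put m τ (a, b, c) (i + 1)).getD v 0 = 0) = B := by
          ext v
          simp only [Finset.mem_filter, Finset.mem_range, getD_put]
          grind
        exact this ▸ hB
  obtain ⟨t, ht, e⟩ : ∃ t, okS m N τ (i + 1) t = true ∧ P324.round m N τ i = put m τ t (i + 1) := by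
    unfold P324.round
    cases hl : (tris m).filter fun t => okS m N τ (i + 1) t with
    | nil =>
      obtain ⟨t, h1, h2⟩ := hex
      exact absurd (List.mem_filter.2 ⟨h1, h2⟩) (by simp [hl])
    | cons t l => exact ⟨t, (List.mem_filter.1 (hl ▸ List.mem_cons_self)).2, rfl⟩
  obtain ⟨a, b, c⟩ := t
  obtain ⟨t1, t2, t3, t4, t5, t6⟩ := (okS_iff h hN k4).1 ht
  have hp : ∀ v, (put m τ (a, b, c) (i + 1)).getD v 0 =
      if v = a ∨ v = b ∨ v = c then i + 1 else τ.getD v 0 := fun v => by
    have := k4 v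
    rw [getD_put]; grind
  rw [e]
  unfold Tri at t1
  simp only at t1 t2 t3 t4 t5
  refine ⟨t6, ?_, ?_, ?_, fun s hs => ?_, ?_⟩ <;> simp only [hp]
  · rw [show ((Finset.range N).filter fun v => τ.getD v 0 = 0) = insert a (insert b (insert c
      ((Finset.range N).filter fun v =>
        (if v = a ∨ v = b ∨ v = c then i + 1 else τ.getD v 0) = 0))) by
          ext v
          simp only [Finset.mem_filter, Finset.mem_range, Finset.mem_insert]
          by_cases hv : v = a ∨ v = b ∨ v = c <;> grind,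
      Finset.card_insert_of_notMem, Finset.card_insert_of_notMem,
      Finset.card_insert_of_notMem] at k2 <;> grind
  · grind
  · grind
  · by_cases hs' : s = i + 1
    · exact (Finset.card_le_card (t := {a, b, c}) (by grind)).trans Finset.card_le_three
    · exact (Finset.card_le_card (by grind)).trans (k5 s hs)
  · grind

lemma inv_sched {m : Mat} {N : ℕ} (h : Ord m N (N + 1))
    (hN : ∀ v, rel m N v ∧ rel m v (N + 1) ↔ v < N) (hF : Feas (rel m) (Finset.range N)) :
    ∀ i, 3 * i ≤ N → Inv m N i fun v => (sched m N i).getD v 0 := by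
  intro i
  induction i with
  | zero =>
    intro _
    refine ⟨?_, ?_, ?_, ?_, fun t ht => ?_, ?_⟩ <;> simp_all [sched, eq_comm (a := 0)]
  | succ i ih =>
    intro hi
    rw [sched, List.range_succ, List.foldl_append]
    exact (ih (by omega)).round h hN (by omega)

theorem exists_schedule (G : Dag) : ∃ τ, G.IsSchedule G.n τ := by
  have ho := ord_big G le_rfl
  obtain ⟨σ, h1, h2⟩ := compress fun v : Fin G.n => rank (big (clos (raw G)) G.n) v
  refine ⟨σ, by simpa using h1, fun t => (Finset.card_le_one.2 fun u hu v hv => ?_).trans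
    (by norm_num), fun u v k => h2 u v (ho.mo _ _ (rel_big.2
      ⟨by omega, by omega, Or.inr (Or.inr ((clos_spec G).1 u v k))⟩))⟩
  simp only [Finset.mem_filter, Finset.mem_univ, true_and] at hu hv
  rcases lt_trichotomy (rank (big (clos (raw G)) G.n) u) (rank (big (clos (raw G)) G.n) v) with
    k | k | k
  · have := h2 u v k; omega
  · exact Fin.ext (ho.sys.inj k)
  · have := h2 v u k; omega

theorem opt_spec (G : Dag) : opt (raw G) ≤ G.n ∧ (∃ τ, G.IsSchedule (opt (raw G)) τ) ∧
    ∀ T τ, G.IsSchedule T τ → opt (raw G) ≤ T := by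
  have hp := G.pos
  have hn : dec (raw G) (G.n - 1 + 1) = true := by
    rw [dec_iff, Nat.sub_add_cancel hp]; exact exists_schedule G
  obtain ⟨j, hj⟩ : ∃ j, (idx (raw G)).find? (fun T => dec (raw G) (T + 1)) = some j := by
    rw [← Option.isSome_iff_exists, List.find?_isSome]
    exact ⟨G.n - 1, by simp [idx]; omega, hn⟩
  have e : opt (raw G) = j + 1 := by
    rw [opt, List.headD_eq_head?_getD, List.head?_filter, hj]; rfl
  rw [idx, List.find?_range_eq_some, List.mem_range, length_raw] at hj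
  refine ⟨by omega, (dec_iff G _).1 (e ▸ hj.1), fun T τ h => ?_⟩
  have h1 := (h.1 ⟨0, hp⟩).1.trans (h.1 ⟨0, hp⟩).2
  by_contra hc
  have h2 := hj.2.2 (T - 1) (by omega)
  rw [Nat.sub_add_cancel h1, (dec_iff G T).2 ⟨τ, h⟩] at h2
  simp at h2

theorem out_spec (G : Dag) : G.IsSchedule (opt (raw G)) fun v => (out (raw G)).getD v 0 := by
  obtain ⟨h1, ⟨τ, h2⟩, -⟩ := opt_spec G
  have hn : G.n ≤ 3 * opt (raw G) := by
    simpa using card_le_of_slots (S := Finset.univ) (fun v _ => h2.1 v) h2.2.1
  have ho := ord_big G hn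
  have hN : ∀ v, rel (big (clos (raw G)) (3 * opt (raw G))) (3 * opt (raw G)) v ∧
      rel (big (clos (raw G)) (3 * opt (raw G))) v (3 * opt (raw G) + 1) ↔ v < 3 * opt (raw G) := by
    intro v
    have := clos_lt G hn (3 * opt (raw G)) v
    have := clos_lt G hn v (3 * opt (raw G) + 1)
    simp only [rel_big]
    grind
  obtain ⟨-, k2, k3, -, k5, k6⟩ := inv_sched ho hN (feas_of_schedule G h2 hn) (opt (raw G)) le_rfl
  have k7 : ∀ v < 3 * opt (raw G), (sched (big (clos (raw G)) (3 * opt (raw G))) (3 * opt (raw G))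
      (opt (raw G))).getD v 0 ≠ 0 := fun v hv k => by
    have := Finset.filter_eq_empty_iff.1 (Finset.card_eq_zero.1 (Nat.add_eq_right.1 k2))
    exact this (Finset.mem_range.2 hv) k
  have := schedule_of_slots G hn (τ := fun v => (sched (big (clos (raw G)) (3 * opt (raw G)))
    (3 * opt (raw G)) (opt (raw G))).getD v 0)
    (fun v hv => ⟨Nat.pos_of_ne_zero (k7 v hv), k3 v⟩) (fun t => ?_)
    fun u hu v hv k => (k6 u hu v hv k (k7 v hv)).2
  · convert this using 2 with v
    simp [out, pad, idx, min_eq_left h1, List.getD_eq_getElem?_getD]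
  · by_cases ht : t = 0
    · subst ht; omega
    · exact k5 t ht

theorem search : ∃ τ : (G : Dag) → Fin G.n → ℕ,
    (∀ G : Dag, ∃ T, G.IsSchedule T (τ G) ∧ ∀ T' σ, G.IsSchedule T' σ → T ≤ T') ∧
    ∃ M : TM2ComputableInPolyTime Dag.code (codeList codeNat) fun G => List.ofFn (τ G),
      ∀ k, Finite (M.tm.Γ k) := by
  refine ⟨fun G v => (out (raw G)).getD v 0, fun G => ⟨_, out_spec G, (opt_spec G).2.2⟩,
    export_poly ct_out raw _ _ _ code_raw fun G => ?_⟩
  rw [code_list _ _ code_nat]
  congr 1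
  have hl : (out (raw G)).length = G.n := by simp [out, idx]
  exact List.ext_getElem (by simp [hl]) fun i h1 h2 => by
    simp [List.getD_eq_getElem?_getD, h1]

end Vale.Agent.P324
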