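import Mathlib

/-!
Perfect three-machine schedules of a finite strict order: splitting at a slot, and the structure
theorem behind the dynamic program.
-/

namespace Vale.Agent.P324

variable {V W : Type} [DecidableEq V] [LinearOrder W]

/-- Three distinct pairwise unrelated jobs. -/
def Tri (r : V → V → Prop) (a b c : V) : Prop :=
  a ≠ b ∧ a ≠ c ∧ b ≠ c ∧ ¬r a b ∧ ¬r b a ∧ ¬r a c ∧ ¬r c a ∧ ¬r b c ∧ ¬r c b

/-- Sets of jobs that can be scheduled with exactly three jobs in each slot used. -/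
inductive Feas (r : V → V → Prop) : Finset V → Prop
  | nil : Feas r ∅
  | cons {a b c : V} {B J : Finset V} : Tri r a b c →
      (∀ v ∈ B, v ≠ a ∧ v ≠ b ∧ v ≠ c ∧ ¬r v a ∧ ¬r v b ∧ ¬r v c) →
      (∀ v, v ∈ J ↔ v = a ∨ v = b ∨ v = c ∨ v ∈ B) → Feas r B → Feas r J

/-- A perfect schedule of `J` cut at the slot `a, b, c`: first `A`, then the slot, then `B`. -/
structure Split (r : V → V → Prop) (J A : Finset V) (a b c : V) (B : Finset V) : Prop where
  fA : Feas r A
  fB : Feas r B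
  tri : Tri r a b c
  hA : ∀ v ∈ A, v ≠ a ∧ v ≠ b ∧ v ≠ c ∧ ¬r a v ∧ ¬r b v ∧ ¬r c v
  hB : ∀ v ∈ B, v ≠ a ∧ v ≠ b ∧ v ≠ c ∧ ¬r v a ∧ ¬r v b ∧ ¬r v c
  hAB : ∀ u ∈ A, ∀ v ∈ B, u ≠ v ∧ ¬r v u
  mem : ∀ v, v ∈ J ↔ v ∈ A ∨ v = a ∨ v = b ∨ v = c ∨ v ∈ B

variable {r : V → V → Prop}

lemma Feas.join {A : Finset V} (hA : Feas r A) : ∀ {B J : Finset V}, Feas r B →
    (∀ u ∈ A, ∀ v ∈ B, u ≠ v ∧ ¬r v u) → (∀ v, v ∈ J ↔ v ∈ A ∨ v ∈ B) → Feas r J := by
  induction hA with
  | nil =>
    intro B J hB _ hJ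
    have : J = B := by ext v; simp [hJ]
    exact this ▸ hB
  | @cons a b c A' A ht h1 h2 _ ih =>
    intro B J hB h3 hJ
    refine Feas.cons (B := A' ∪ B) ht (fun v hv => ?_) (fun v => ?_)
      (ih hB (fun u hu v hv => h3 u ((h2 u).2 (by simp [hu])) v hv) (fun v => Finset.mem_union))
    · rcases Finset.mem_union.1 hv with hv | hv
      · exact h1 v hv
      · have k1 := h3 a ((h2 a).2 (by simp)) v hv
        have k2 := h3 b ((h2 b).2 (by simp)) v hv
        have k3 := h3 c ((h2 c).2 (by simp)) v hv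
        exact ⟨k1.1.symm, k2.1.symm, k3.1.symm, k1.2, k2.2, k3.2⟩
    · rw [hJ, h2, Finset.mem_union]; tauto

lemma Split.feas {J A B : Finset V} {a b c : V} (h : Split r J A a b c B) : Feas r J := by
  refine h.fA.join (B := insert a (insert b (insert c B)))
    (Feas.cons h.tri h.hB (fun v => by simp) h.fB) (fun u hu v hv => ?_) (fun v => ?_)
  · have k := h.hA u hu
    simp only [Finset.mem_insert] at hv
    rcases hv with rfl | rfl | rfl | hv
    · exact ⟨k.1, k.2.2.2.1⟩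
    · exact ⟨k.2.1, k.2.2.2.2.1⟩
    · exact ⟨k.2.2.1, k.2.2.2.2.2⟩
    · exact h.hAB u hu v hv
  · rw [h.mem]; simp

omit [DecidableEq V] in
lemma Split.swap {J A B : Finset V} {a b c : V} (h : Split r J A a b c B) :
    Split r J A a c b B := by
  obtain ⟨h1, h2, h3, h4, h5, h6, h7⟩ := h
  refine ⟨h1, h2, ?_, fun v hv => ?_, fun v hv => ?_, h6, fun v => ?_⟩
  · unfold Tri at *; tauto
  · have := h4 v hv; tauto
  · have := h5 v hv; tauto
  · rw [h7]; tauto

omit [DecidableEq V] in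
lemma Split.rot {J A B : Finset V} {a b c : V} (h : Split r J A a b c B) :
    Split r J A b a c B := by
  obtain ⟨h1, h2, h3, h4, h5, h6, h7⟩ := h
  refine ⟨h1, h2, ?_, fun v hv => ?_, fun v hv => ?_, h6, fun v => ?_⟩
  · unfold Tri at *; tauto
  · have := h4 v hv; tauto
  · have := h5 v hv; tauto
  · rw [h7]; tauto

lemma Feas.exists_split {J : Finset V} (h : Feas r J) :
    ∀ g ∈ J, ∃ A x y B, Split r J A g x y B := by
  induction h with
  | nil => simp
  | @cons a b c B J ht h1 h2 hB ih =>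
    intro g hg
    have h0 : Split r J ∅ a b c B :=
      ⟨Feas.nil, hB, ht, by simp, h1, by simp, fun v => by simp [h2]⟩
    rcases (h2 g).1 hg with rfl | rfl | rfl | hg
    · exact ⟨_, _, _, _, h0⟩
    · exact ⟨_, _, _, _, h0.rot⟩
    · exact ⟨_, _, _, _, h0.swap.rot⟩
    · obtain ⟨A, x, y, B', k1, k2, k3, k4, k5, k6, k7⟩ := ih g hg
      refine ⟨insert a (insert b (insert c A)), x, y, B', Feas.cons ht (fun v hv => ?_)
        (fun v => by simp) k1, k2, k3, ?_, k5, ?_, ?_⟩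
      · exact h1 v ((k7 v).2 (Or.inl hv))
      · have := h1 g hg
        have := h1 x ((k7 x).2 (by simp))
        have := h1 y ((k7 y).2 (by simp))
        grind
      · grind
      · grind

/-- A cut of the part after the slot gives a later cut of the whole set. -/
lemma Split.extend {J A B A' B' : Finset V} {g x y h p q : V} (k : Split r J A g x y B)
    (k' : Split r B A' h p q B') :
    Split r J (A ∪ insert g (insert x (insert y A'))) h p q B' := by
  obtain ⟨h1, h2, h3, h4, h5, h6, h7⟩ := k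
  obtain ⟨k1, k2, k3, k4, k5, k6, k7⟩ := k'
  have e1 := (k7 h).2 (by simp)
  have e2 := (k7 p).2 (by simp)
  have e3 := (k7 q).2 (by simp)
  have e4 : ∀ v ∈ A', v ∈ B := fun v hv => (k7 v).2 (by simp [hv])
  have e5 : ∀ v ∈ B', v ∈ B := fun v hv => (k7 v).2 (by simp [hv])
  refine ⟨Split.feas (A := A) (B := A') ⟨h1, k1, h3, h4, fun v hv => h5 v (e4 v hv),
    fun u hu v hv => h6 u hu v (e4 v hv),
    fun v => by simp only [Finset.mem_union, Finset.mem_insert]⟩, k2, k3, ?_, k5, ?_, ?_⟩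
  · have := h5 h e1
    have := h5 p e2
    have := h5 q e3
    have := fun u hu => h6 u hu h e1
    have := fun u hu => h6 u hu p e2
    have := fun u hu => h6 u hu q e3
    intro v hv
    simp only [Finset.mem_union, Finset.mem_insert] at hv
    rcases hv with hv | hv | hv | hv | hv <;> grind
  · grind
  · grind

/-- If the part after the slot of the sink `g` is as small as possible, it lies above the slot. -/
lemma Split.late {ι : V → W} (tr : ∀ u v w, r u v → r v w → r u w)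
    (mo : ∀ u v, r u v → ι u < ι v) {J A B : Finset V} {g x y : V} (h : Split r J A g x y B)
    (hg : ∀ v ∈ J, ¬r g v) (hmin : ∀ A' x' y' B', Split r J A' g x' y' B' → B.card ≤ B'.card) :
    ∀ v ∈ B, r x v ∨ r y v := by
  classical
  by_contra hc
  push Not at hc
  obtain ⟨v, hv, hm⟩ := Finset.exists_min_image (B.filter fun v => ¬r x v ∧ ¬r y v) ι
    (let ⟨v, h1, h2⟩ := hc; ⟨v, Finset.mem_filter.2 ⟨h1, h2⟩⟩)
  obtain ⟨hvB, hx, hy⟩ := Finset.mem_filter.1 hv
  have hs : ∀ u ∈ B, ¬r u v := fun u hu huv =>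
    (hm u (Finset.mem_filter.2 ⟨hu, fun h' => hx (tr _ _ _ h' huv),
      fun h' => hy (tr _ _ _ h' huv)⟩)).not_gt (mo _ _ huv)
  obtain ⟨A', p, q, B', k1, k2, k3, k4, k5, k6, k7⟩ := h.fB.exists_split v hvB
  obtain ⟨h1, h2, h3, h4, h5, h6, h7⟩ := h
  have e2 := (k7 p).2 (by simp)
  have e3 := (k7 q).2 (by simp)
  have e4 : ∀ v ∈ A', v ∈ B := fun v hv => (k7 v).2 (by simp [hv])
  have e5 : ∀ v ∈ B', v ∈ B := fun v hv => (k7 v).2 (by simp [hv])
  have e6 : ∀ v ∈ B, ¬r g v := fun v hv => hg v ((h7 v).2 (by simp [hv]))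
  have f1 := h5 v hvB
  have f2 := h5 p e2
  have f3 := h5 q e3
  have f4 := e6 p e2
  have f5 := e6 q e3
  have hlt : B'.card < B.card :=
    Finset.card_lt_card ⟨e5, fun h' => (k5 v (h' hvB)).1 rfl⟩
  unfold Tri at h3 k3
  refine (hmin (A ∪ insert v (insert x (insert y A'))) p q B' ⟨Split.feas (A := A) (B := A')
    (a := v) (b := x) (c := y) ⟨h1, k1, ?_, ?_, ?_, ?_,
    fun v => by simp only [Finset.mem_union, Finset.mem_insert]⟩,
    k2, ?_, ?_, ?_, ?_, ?_⟩).not_gt hlt
  · unfold Tri; grind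
  · grind
  · grind
  · grind
  · unfold Tri; grind
  · have := fun u hu => h6 u hu p e2
    have := fun u hu => h6 u hu q e3
    intro u hu
    simp only [Finset.mem_union, Finset.mem_insert] at hu
    rcases hu with hu | hu | hu | hu | hu <;> grind
  · grind
  · intro u hu w hw
    have := e5 w hw
    simp only [Finset.mem_union, Finset.mem_insert] at hu
    rcases hu with hu | hu | hu | hu | hu <;> grind
  · grind

/-- Exchanging a job of the slot with a sink of the earlier part. -/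
lemma Split.exchange {J A B A' B' : Finset V} {g x y h p q : V} (k : Split r J A g x y B)
    (k' : Split r A A' h p q B') (hs : ∀ v ∈ A, ¬r h v) (n1 : ¬r h g) (n2 : ¬r h x)
    (n3 : ¬r h y) (n4 : ¬r p x) (n5 : ¬r q x) (n6 : ∀ u ∈ B', ¬r u x) :
    ∃ A'', Split r J A'' g h y B := by
  obtain ⟨h1, h2, h3, h4, h5, h6, h7⟩ := k
  obtain ⟨k1, k2, k3, k4, k5, k6, k7⟩ := k'
  have e1 := (k7 h).2 (by simp)
  have e2 := (k7 p).2 (by simp)
  have e3 := (k7 q).2 (by simp)
  have e4 : ∀ v ∈ A', v ∈ A := fun v hv => (k7 v).2 (by simp [hv])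
  have e5 : ∀ v ∈ B', v ∈ A := fun v hv => (k7 v).2 (by simp [hv])
  have f1 := h4 h e1
  have f2 := h4 p e2
  have f3 := h4 q e3
  unfold Tri at h3 k3
  refine ⟨insert x (A.erase h), Split.feas (A := A') (B := B') (a := x) (b := p) (c := q)
    ⟨k1, k2, ?_, ?_, ?_, k6, ?_⟩, h2, ?_, ?_, ?_, ?_, ?_⟩
  · unfold Tri; grind
  · grind
  · grind
  · grind
  · unfold Tri; grind
  · grind
  · grind
  · grind
  · grind

end Vale.Agent.P324
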